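import Vale.Agent.P092.H144.GeoA

/-!
P092, TEAM C, block [C-GEO] (helper144), part B: `GeoStmt`.
-/

set_option linter.all false

open scoped LinearAlgebra.Projectivization Matrix
open Matrix TopologicalSpace Filter Topology

namespace Vale.Agent.P092.H144.Geo

open Vale.Agent.P092.RC
open Vale.Agent.P092.H820 (pj pj_surj pj_continuous pj_oq pj_eq)

section top

variable {k : Type} [NontriviallyNormedField k] [IsUltrametricDist k] {m : ℕ}

/-- near a nonzero vector the set of maximal coordinates is constant -/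
theorem mx_local (v₀ : Fin (m + 1) → k) (hv₀ : v₀ ≠ 0) : ∀ᶠ v in 𝓝 v₀, mx v = mx v₀ := by
  have hpos : 0 < ‖v₀ (ix v₀)‖ := norm_pos_iff.2 (ix_ne hv₀)
  set r := ‖v₀ (ix v₀)‖ with hr
  -- coordinates close
  have h1 : ∀ᶠ v in 𝓝 v₀, ∀ j, ‖v j - v₀ j‖ < r := by
    rw [eventually_all]
    intro j
    have hc : Continuous fun v : Fin (m + 1) → k => ‖v j - v₀ j‖ := by fun_prop
    have := hc.tendsto v₀
    simp only [sub_self, norm_zero] at this
    exact this.eventually (gt_mem_nhds hpos)
  filter_upwards [h1] with v hv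
  have hle : ∀ j, ‖v j‖ ≤ r := by
    intro j
    have e : v j = (v j - v₀ j) + v₀ j := by ring
    rw [e]
    exact (IsUltrametricDist.norm_add_le_max _ _).trans (max_le (hv j).le (ix_mem v₀ j))
  have hiff : ∀ j, ‖v j‖ = r ↔ ‖v₀ j‖ = r := by
    intro j
    constructor
    · intro h
      refine le_antisymm (ix_mem v₀ j) ?_
      have e : v j = (v j - v₀ j) + v₀ j := by ring
      have h2 : ‖v j‖ ≤ max ‖v j - v₀ j‖ ‖v₀ j‖ := by
        conv_lhs => rw [e]
        exact IsUltrametricDist.norm_add_le_max _ _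
      rw [h] at h2
      rcases le_max_iff.1 h2 with h3 | h3
      · exact absurd (hv j) (not_lt.2 h3)
      · exact h3
    · intro h
      refine le_antisymm (hle j) ?_
      have e : v₀ j = -(v j - v₀ j) + v j := by ring
      have h2 : ‖v₀ j‖ ≤ max ‖v j - v₀ j‖ ‖v j‖ := by
        conv_lhs => rw [e]
        exact (IsUltrametricDist.norm_add_le_max _ _).trans (by rw [norm_neg])
      rw [h] at h2
      rcases le_max_iff.1 h2 with h3 | h3
      · exact absurd (hv j) (not_lt.2 h3)
      · exact h3
  have hmax : ∀ j, j ∈ mx v₀ ↔ ‖v₀ j‖ = r := by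
    intro j
    rw [mem_mx]
    constructor
    · intro h
      exact le_antisymm (ix_mem v₀ j) (h (ix v₀))
    · intro h i
      rw [h]
      exact ix_mem v₀ i
  have hmax' : ∀ j, j ∈ mx v ↔ ‖v j‖ = r := by
    intro j
    rw [mem_mx]
    constructor
    · intro h
      refine le_antisymm (hle j) ?_
      have h4 := h (ix v₀)
      rwa [(hiff (ix v₀)).2 rfl] at h4
    · intro h i
      rw [h]
      exact hle i
  ext j
  rw [hmax, hmax', hiff]

theorem ix_local (v₀ : Fin (m + 1) → k) (hv₀ : v₀ ≠ 0) : ∀ᶠ v in 𝓝 v₀, ix v = ix v₀ :=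
  (mx_local v₀ hv₀).mono fun _ h => ix_congr h

theorem sct_continuous : Continuous (sct : YY k m → Matrix (Fin (m + 1)) (Fin (m + 1)) k) := by
  rw [← (pj_oq (k := k) (ι := Fin (m + 1))).continuous_comp_iff]
  have e : (sct : YY k m → _) ∘ pj k (Fin (m + 1)) = fun v =>
      Matrix.of fun a b => Fin.cases (motive := fun _ => k) (v.1 a / v.1 (ix v.1))
        (fun j => if a = (ix v.1).succAbove j then 1 else 0) b := by
    funext v
    have h1 : ix (pj k (Fin (m + 1)) v).rep = ix v.1 := ix_mk v.1 v.2
    have h2 : ∀ a, nv (pj k (Fin (m + 1)) v) a = v.1 a / v.1 (ix v.1) := nv_mk v.1 v.2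
    ext a b
    refine Fin.cases ?_ (fun j => ?_) b
    · exact h2 a
    · change (if a = (ix (pj k (Fin (m + 1)) v).rep).succAbove j then (1 : k) else 0) = _
      rw [h1]
      rfl
  rw [e, continuous_iff_continuousAt]
  intro v
  have h3 : (fun w : {v : Fin (m + 1) → k // v ≠ 0} =>
      (Matrix.of fun a b => Fin.cases (motive := fun _ => k) (w.1 a / w.1 (ix v.1))
        (fun j => if a = (ix v.1).succAbove j then 1 else 0) b :
          Matrix (Fin (m + 1)) (Fin (m + 1)) k)) =ᶠ[𝓝 v] fun w =>
      Matrix.of fun a b => Fin.cases (motive := fun _ => k) (w.1 a / w.1 (ix w.1))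
        (fun j => if a = (ix w.1).succAbove j then 1 else 0) b := by
    have h4 : ∀ᶠ w : {v : Fin (m + 1) → k // v ≠ 0} in 𝓝 v, ix w.1 = ix v.1 :=
      (continuous_subtype_val.tendsto v).eventually (ix_local v.1 v.2)
    filter_upwards [h4] with w hw
    rw [hw]
  refine ContinuousAt.congr ?_ h3
  refine continuousAt_pi.2 fun a => continuousAt_pi.2 fun b => ?_
  refine Fin.cases ?_ (fun j => ?_) b
  · change ContinuousAt (fun w : {v : Fin (m + 1) → k // v ≠ 0} => w.1 a / w.1 (ix v.1)) v
    refine ContinuousAt.div ?_ ?_ (ix_ne v.2)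
    · exact ((continuous_apply a).comp continuous_subtype_val).continuousAt
    · exact ((continuous_apply (ix v.1)).comp continuous_subtype_val).continuousAt
  · exact continuousAt_const

theorem sct_inv_continuous :
    Continuous fun y : YY k m => (sct y)⁻¹ := by
  have e : (fun y : YY k m => (sct y)⁻¹) = fun y => (sct y).det⁻¹ • (sct y).adjugate := by
    funext y
    rw [Matrix.inv_def, Ring.inverse_eq_inv']
  rw [e]
  exact (sct_continuous.matrix_det.inv₀ fun y => sct_det y).smul sct_continuous.matrix_adjugate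

theorem act_continuous : Continuous fun p : GG k m × YY k m => p.1 • p.2 := continuous_smul

theorem MM_continuous : Continuous fun p : GG k m × YY k m => MM p.1 p.2 := by
  unfold MM
  exact ((sct_inv_continuous.comp act_continuous).matrix_mul
    (continuous_subtype_val.comp continuous_fst)).matrix_mul (sct_continuous.comp continuous_snd)

theorem blk_continuous : Continuous fun p : GG k m × YY k m => blk p.1 p.2 :=
  MM_continuous.matrix_submatrix _ _

theorem bu_continuous : Continuous fun p : GG k m × YY k m => bu p.1 p.2 := by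
  rw [Units.continuous_iff]
  have h : Continuous fun p : GG k m × YY k m => (p.1⁻¹, p.1 • p.2) :=
    (continuous_fst.inv).prodMk act_continuous
  have h2 := blk_continuous.comp h
  have e : (fun p : GG k m × YY k m => ((bu p.1 p.2)⁻¹ : GL (Fin m) k).1) =
      (fun p : GG k m × YY k m => blk p.1 p.2) ∘ fun p : GG k m × YY k m => (p.1⁻¹, p.1 • p.2) := by
    funext p
    rfl
  refine ⟨blk_continuous, ?_⟩
  rw [← e] at h2
  exact h2

theorem cc_continuous : Continuous fun p : GG k m × YY k m => (cc p.1 p.2 : PG k m) := by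
  have e : (fun p : GG k m × YY k m => (cc p.1 p.2 : PG k m)) = fun p =>
      QuotientGroup.mk (bu p.1 p.2) := by
    funext p
    exact cc_eq p.1 p.2
  rw [e]
  exact QuotientGroup.continuous_mk.comp bu_continuous

end top

section lev

variable {k : Type} [NontriviallyNormedField k] {m : ℕ}

theorem y0_nv : (nv (y0 : YY k m)) = Pi.single 0 1 := by
  funext j
  unfold y0
  rw [nv_mk]
  have h : ix (Pi.single 0 1 : Fin (m + 1) → k) = 0 := by
    by_contra hne
    have h1 := ix_mem (Pi.single 0 1 : Fin (m + 1) → k) 0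
    rw [Pi.single_eq_same, Pi.single_eq_of_ne hne, norm_one, norm_zero] at h1
    exact absurd h1 (by norm_num)
  rw [h, Pi.single_eq_same, div_one]

theorem y0_ix : ix (y0 : YY k m).rep = 0 := by
  unfold y0
  rw [ix_mk]
  by_contra hne
  have h1 := ix_mem (Pi.single 0 1 : Fin (m + 1) → k) 0
  rw [Pi.single_eq_same, Pi.single_eq_of_ne hne, norm_one, norm_zero] at h1
  exact absurd h1 (by norm_num)

theorem sct_y0 : sct (y0 : YY k m) = 1 := by
  ext a b
  refine Fin.cases ?_ (fun j => ?_) b
  · rw [sct_zero, y0_nv]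
    by_cases ha : a = 0
    · subst ha
      simp
    · rw [Pi.single_eq_of_ne ha, Matrix.one_apply_ne ha]
  · rw [sct_succ, y0_ix, Fin.succAbove_zero]
    rw [Matrix.one_apply]

theorem smul_eq_y0 (g : GG k m) (c : k) (hg : g.1 *ᵥ (Pi.single 0 1) = c • (Pi.single 0 1)) :
    g • (y0 : YY k m) = y0 := by
  have hne : g • (Pi.single 0 1 : Fin (m + 1) → k) ≠ 0 := (smul_ne_zero_iff_ne g).2 (by
    intro h
    have := congrFun h 0
    simp at this)
  have hc : c ≠ 0 := by
    rintro rfl
    apply hne
    change g.1 *ᵥ (Pi.single 0 1) = 0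
    rw [hg, zero_smul]
  have h1 : g • (y0 : YY k m) = Projectivization.mk k (g • (Pi.single 0 1 : Fin (m + 1) → k)) hne :=
    rfl
  rw [h1]
  unfold y0
  rw [Projectivization.mk_eq_mk_iff]
  refine ⟨Units.mk0 c hc, ?_⟩
  rw [Units.smul_def, Units.val_mk0]
  exact hg.symm

/-- the matrix `diag(d, h)` -/
def dm (d : k) (h : Matrix (Fin m) (Fin m) k) : Matrix (Fin (m + 1)) (Fin (m + 1)) k :=
  Matrix.of fun a b => Fin.cases (motive := fun _ => k)
    (Fin.cases (motive := fun _ => k) d (fun _ => 0) b)
    (fun i => Fin.cases (motive := fun _ => k) 0 (fun j => h i j) b) a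

theorem dm_det (d : k) (h : Matrix (Fin m) (Fin m) k) : (dm d h).det = d * h.det := by
  rw [Matrix.det_succ_row_zero, Fin.sum_univ_succ, Finset.sum_eq_zero, add_zero]
  · have e : (dm d h).submatrix Fin.succ (Fin.succAbove 0) = h := by
      ext i j
      rw [Fin.succAbove_zero]
      rfl
    rw [e]
    have e2 : dm d h 0 0 = d := rfl
    rw [e2]
    simp
  · intro j _
    have e2 : dm d h 0 j.succ = 0 := rfl
    rw [e2]
    simp

theorem lev_geo (h : PG k m) : ∃ g : GG k m, g • (y0 : YY k m) = y0 ∧ (cc g y0 : PG k m) = h := by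
  obtain ⟨u, rfl⟩ := QuotientGroup.mk_surjective h
  have hu : u.1.det ≠ 0 := ((Matrix.isUnit_iff_isUnit_det _).1 u.isUnit).ne_zero
  let g : GG k m := ⟨dm (u.1.det)⁻¹ u.1, by rw [dm_det, inv_mul_cancel₀ hu]⟩
  have hg : g • (y0 : YY k m) = y0 := by
    refine smul_eq_y0 g (u.1.det)⁻¹ ?_
    rw [Matrix.mulVec_single_one]
    funext a
    refine Fin.cases ?_ (fun i => ?_) a
    · change (u.1.det)⁻¹ = _
      simp
    · change (0 : k) = _
      simp
  refine ⟨g, hg, ?_⟩
  rw [cc_eq]
  congr 1
  apply Units.ext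
  change blk g y0 = u.1
  rw [blk_eq]
  unfold MM
  rw [hg, sct_y0, inv_one, one_mul, mul_one]
  rfl

theorem surj_geo (hm : 1 ≤ m) (y : YY k m) : ∃ g : GG k m, g • (y0 : YY k m) = y := by
  classical
  have hd := sct_det y
  let D : Matrix (Fin (m + 1)) (Fin (m + 1)) k :=
    Matrix.diagonal (Function.update (fun _ => 1) (Fin.last m) ((sct y).det)⁻¹)
  have hD : D.det = ((sct y).det)⁻¹ := by
    rw [Matrix.det_diagonal, Finset.prod_update_of_mem (Finset.mem_univ _)]
    simp
  let g : GG k m := ⟨sct y * D, by rw [Matrix.det_mul, hD, mul_inv_cancel₀ hd]⟩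
  refine ⟨g, ?_⟩
  have h0 : (0 : Fin (m + 1)) ≠ Fin.last m := by
    intro h
    have := congrArg Fin.val h
    simp at this
    omega
  have h1 : g.1 *ᵥ (Pi.single 0 1) = nv y := by
    change (sct y * D) *ᵥ (Pi.single 0 1) = nv y
    rw [← Matrix.mulVec_mulVec, Matrix.diagonal_mulVec_single, Function.update_of_ne h0, one_mul,
      sct_mulVec_single]
  have hne : g • (Pi.single 0 1 : Fin (m + 1) → k) ≠ 0 := (smul_ne_zero_iff_ne g).2 (by
    intro h
    have := congrFun h 0
    simp at this)
  have h2 : g • (y0 : YY k m) = Projectivization.mk k (g • (Pi.single 0 1 : Fin (m + 1) → k)) hne :=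
    rfl
  rw [h2]
  have h3 : g • (Pi.single 0 1 : Fin (m + 1) → k) = nv y := h1
  rw [← mk_nv y]
  congr 1

end lev

section final

open Vale.Agent.P092.RC

theorem t2_pg (k : Type) [NontriviallyNormedField k] (m : ℕ) : T2Space (PG k m) := by
  haveI : IsClosed ((Subgroup.center (GL (Fin m) k) : Subgroup (GL (Fin m) k)) :
      Set (GL (Fin m) k)) := by
    have e : ((Subgroup.center (GL (Fin m) k) : Subgroup (GL (Fin m) k)) : Set (GL (Fin m) k)) =
        ⋂ h : GL (Fin m) k, {g | h * g = g * h} := by
      ext g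
      simp [Subgroup.mem_center_iff]
    rw [e]
    exact isClosed_iInter fun h => isClosed_eq (continuous_const.mul continuous_id)
      (continuous_id.mul continuous_const)
  infer_instance

theorem sc_pg (k : Type) [NontriviallyNormedField k] [ProperSpace k] (m : ℕ) :
    SecondCountableTopology (PG k m) := by
  haveI : SecondCountableTopology k := inferInstance
  haveI : SecondCountableTopology (Matrix (Fin m) (Fin m) k) :=
    inferInstanceAs (SecondCountableTopology (Fin m → Fin m → k))
  haveI : SecondCountableTopology (GL (Fin m) k) := by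
    haveI : SecondCountableTopology (Matrix (Fin m) (Fin m) k)ᵐᵒᵖ :=
      (MulOpposite.opHomeomorph (M := Matrix (Fin m) (Fin m) k)).symm.isEmbedding.secondCountableTopology
    exact (Units.isEmbedding_embedProduct (M := Matrix (Fin m) (Fin m) k)).secondCountableTopology
  infer_instance

/-- **[C-GEO]** -/
theorem geoStmt : GeoStmt := by
  intro k _ _ _ m hm
  exact
    { tg := inferInstance
      tg₀ := inferInstance
      cact := act_continuous
      cpt := inferInstance
      t2 := inferInstance
      td := inferInstance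
      t2₀ := t2_pg k m
      sc₀ := sc_pg k m
      mul := cc_mul
      cont := cc_continuous
      surj := surj_geo hm
      lev := lev_geo }

end final

end Vale.Agent.P092.H144.Geo
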