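import Mathlib

/-!
P092 (helper144): monotone limits of positive operators on a Hilbert space, sums of positive
operators with bounded partial sums, and the resolvent argument.
-/

open scoped InnerProductSpace
open Filter Topology ContinuousLinearMap

namespace Vale.Agent.P092.H144

variable {H : Type*} [NormedAddCommGroup H] [InnerProductSpace ℂ H]

/-- the quadratic form `re ⟪ξ, T ξ⟫` -/
noncomputable def qf (T : H →L[ℂ] H) (ξ : H) : ℝ := (⟪ξ, T ξ⟫_ℂ).re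

theorem qf_add (S T : H →L[ℂ] H) (ξ : H) : qf (S + T) ξ = qf S ξ + qf T ξ := by
  simp [qf, inner_add_right]

theorem qf_sub (S T : H →L[ℂ] H) (ξ : H) : qf (S - T) ξ = qf S ξ - qf T ξ := by
  simp [qf, inner_sub_right]

theorem qf_sum {ι : Type*} (F : Finset ι) (T : ι → H →L[ℂ] H) (ξ : H) :
    qf (∑ i ∈ F, T i) ξ = ∑ i ∈ F, qf (T i) ξ := by
  simp [qf, inner_sum]

theorem qf_one (ξ : H) : qf (1 : H →L[ℂ] H) ξ = ‖ξ‖ ^ 2 := by
  simp only [qf, one_apply_eq_self, inner_self_eq_norm_sq_to_K]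
  norm_cast

theorem qf_smul_one (c : ℝ) (ξ : H) : qf ((c : ℂ) • (1 : H →L[ℂ] H)) ξ = c * ‖ξ‖ ^ 2 := by
  have h := qf_one ξ
  simp only [qf, one_apply_eq_self] at h
  simp only [qf, smul_apply, inner_smul_right, one_apply_eq_self,
    Complex.re_ofReal_mul, h]

theorem qf_nonneg {T : H →L[ℂ] H} (hT : T.IsPositive) (ξ : H) : 0 ≤ qf T ξ :=
  hT.re_inner_nonneg_right ξ

theorem qf_le_norm (T : H →L[ℂ] H) (ξ : H) : qf T ξ ≤ ‖T‖ * ‖ξ‖ ^ 2 := by
  calc qf T ξ ≤ ‖⟪ξ, T ξ⟫_ℂ‖ := Complex.re_le_norm _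
    _ ≤ ‖ξ‖ * ‖T ξ‖ := norm_inner_le_norm _ _
    _ ≤ ‖ξ‖ * (‖T‖ * ‖ξ‖) := by gcongr; exact T.le_opNorm ξ
    _ = ‖T‖ * ‖ξ‖ ^ 2 := by ring

/-- `⟪ξ, T ξ⟫` is real for a symmetric operator -/
theorem inner_eq_qf {T : H →L[ℂ] H} (hT : T.IsPositive) (ξ : H) : ⟪ξ, T ξ⟫_ℂ = (qf T ξ : ℂ) := by
  have h := hT.inner_nonneg_right ξ
  rw [Complex.le_def] at h
  apply Complex.ext
  · simp [qf]
  · simpa using h.2.symm

/-- Cauchy–Schwarz for the form of a positive operator. -/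
theorem cs {T : H →L[ℂ] H} (hT : T.IsPositive) (ξ η : H) :
    ‖⟪ξ, T η⟫_ℂ‖ ^ 2 ≤ qf T ξ * qf T η := by
  -- discriminant argument
  set z : ℂ := ⟪ξ, T η⟫_ℂ with hz
  have hsym : ⟪η, T ξ⟫_ℂ = (starRingEnd ℂ) z := by
    rw [hz, inner_conj_symm]
    exact (hT.isSymmetric η ξ).symm
  -- for all real t : 0 ≤ qf T (ξ + t c η), with c = conj z
  have key : ∀ t : ℝ, 0 ≤ (‖z‖ ^ 2 * qf T η) * (t * t) + (2 * ‖z‖ ^ 2) * t + qf T ξ := by
    intro t
    have h := qf_nonneg hT (ξ + ((t : ℂ) * (starRingEnd ℂ) z) • η)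
    have e : ⟪ξ + ((t : ℂ) * (starRingEnd ℂ) z) • η, T (ξ + ((t : ℂ) * (starRingEnd ℂ) z) • η)⟫_ℂ
        = ⟪ξ, T ξ⟫_ℂ + ((t : ℂ) * (starRingEnd ℂ) z) * z + ((t : ℂ) * z) * (starRingEnd ℂ) z
          + ((t : ℂ) * z) * ((t : ℂ) * (starRingEnd ℂ) z) * ⟪η, T η⟫_ℂ := by
      rw [map_add, map_smul, inner_add_left, inner_add_right, inner_add_right, inner_smul_left,
        inner_smul_right, inner_smul_left, inner_smul_right, ← hz, hsym]
      simp only [map_mul, Complex.conj_ofReal, Complex.conj_conj]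
      ring
    have e2 : z * (starRingEnd ℂ) z = ((‖z‖ ^ 2 : ℝ) : ℂ) := by
      rw [Complex.mul_conj, Complex.normSq_eq_norm_sq]
    have e3 : qf T (ξ + ((t : ℂ) * (starRingEnd ℂ) z) • η)
        = qf T ξ + 2 * (t * ‖z‖ ^ 2) + t * t * ‖z‖ ^ 2 * qf T η := by
      have e4 : ⟪ξ, T ξ⟫_ℂ + ((t : ℂ) * (starRingEnd ℂ) z) * z + ((t : ℂ) * z) * (starRingEnd ℂ) z
          + ((t : ℂ) * z) * ((t : ℂ) * (starRingEnd ℂ) z) * ⟪η, T η⟫_ℂ =
          ((qf T ξ + 2 * (t * ‖z‖ ^ 2) + t * t * ‖z‖ ^ 2 * qf T η : ℝ) : ℂ) := by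
        rw [inner_eq_qf hT ξ, inner_eq_qf hT η]
        push_cast
        push_cast at e2
        linear_combination (2 * (t : ℂ) + (t : ℂ) * t * (qf T η : ℂ)) * e2
      change (⟪ξ + ((t : ℂ) * (starRingEnd ℂ) z) • η,
        T (ξ + ((t : ℂ) * (starRingEnd ℂ) z) • η)⟫_ℂ).re = _
      rw [e, e4, Complex.ofReal_re]
    rw [e3] at h
    linarith
  have hd := discrim_le_zero key
  rw [discrim] at hd
  by_cases h0 : ‖z‖ = 0
  · rw [h0]
    have := mul_nonneg (qf_nonneg hT ξ) (qf_nonneg hT η)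
    simpa using this
  · have hpos : 0 < ‖z‖ ^ 2 := by positivity
    by_contra hcon
    push Not at hcon
    nlinarith [mul_lt_mul_of_pos_left hcon hpos]

/-- If `0 ≤ T ≤ C` then `‖T ξ‖² ≤ C ⟪ξ, T ξ⟫`. -/
theorem norm_sq_le {T : H →L[ℂ] H} (hT : T.IsPositive) {C : ℝ}
    (hC : ∀ η, qf T η ≤ C * ‖η‖ ^ 2) (ξ : H) : ‖T ξ‖ ^ 2 ≤ C * qf T ξ := by
  have h := cs hT (T ξ) ξ
  rw [inner_self_eq_norm_sq_to_K] at h
  have h1 : ‖((‖T ξ‖ : ℂ)) ^ 2‖ = ‖T ξ‖ ^ 2 := by simp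
  have h2 : ‖T ξ‖ ^ 2 * ‖T ξ‖ ^ 2 ≤ (C * qf T ξ) * ‖T ξ‖ ^ 2 := by
    calc ‖T ξ‖ ^ 2 * ‖T ξ‖ ^ 2 = ‖((‖T ξ‖ : ℂ)) ^ 2‖ ^ 2 := by rw [h1]; ring
      _ ≤ qf T (T ξ) * qf T ξ := h
      _ ≤ (C * ‖T ξ‖ ^ 2) * qf T ξ := by
        gcongr
        · exact qf_nonneg hT ξ
        · exact hC _
      _ = (C * qf T ξ) * ‖T ξ‖ ^ 2 := by ring
  by_cases h0 : T ξ = 0
  · rw [h0]
    simp only [norm_zero, ne_eq, OfNat.ofNat_ne_zero, not_false_eq_true, zero_pow]
    by_cases hξ : ξ = 0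
    · simp [hξ, qf]
    · have hq := qf_nonneg hT ξ
      have hC0 : 0 ≤ C := by
        have := hC ξ
        have hn : 0 < ‖ξ‖ ^ 2 := by positivity
        by_contra hneg
        push Not at hneg
        nlinarith [mul_neg_of_neg_of_pos hneg hn]
      positivity
  · have hp : 0 < ‖T ξ‖ ^ 2 := by positivity
    exact le_of_mul_le_mul_right h2 hp

variable [CompleteSpace H]

/-- A bounded pointwise limit of operators is an operator. -/
theorem lim_op {ι : Type*} {l : Filter ι} [l.NeBot] (T : ι → H →L[ℂ] H) {C : ℝ}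
    (hC : ∀ᶠ i in l, ∀ ξ, ‖T i ξ‖ ≤ C * ‖ξ‖) (hlim : ∀ ξ, ∃ η, Tendsto (fun i => T i ξ) l (𝓝 η)) :
    ∃ S : H →L[ℂ] H, ∀ ξ, Tendsto (fun i => T i ξ) l (𝓝 (S ξ)) := by
  choose f hf using hlim
  refine ⟨LinearMap.mkContinuous
    { toFun := f
      map_add' := fun x y => tendsto_nhds_unique (hf (x + y)) (by
        simpa only [map_add] using (hf x).add (hf y))
      map_smul' := fun c x => tendsto_nhds_unique (hf (c • x)) (by
        have h := (hf x).const_smul c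
        simp only [map_smul, RingHom.id_apply]
        exact h) } C (fun x => ?_), fun x => hf x⟩
  exact le_of_tendsto (hf x).norm (hC.mono fun i hi => hi x)

omit [CompleteSpace H] in
/-- limits of positive operators are positive -/
theorem lim_pos {ι : Type*} {l : Filter ι} [l.NeBot] {T : ι → H →L[ℂ] H} {S : H →L[ℂ] H}
    (hlim : ∀ ξ, Tendsto (fun i => T i ξ) l (𝓝 (S ξ))) (hT : ∀ᶠ i in l, (T i).IsPositive) :
    S.IsPositive := by
  refine ⟨fun x y => ?_, fun x => ?_⟩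
  · have h1 : Tendsto (fun i => ⟪T i x, y⟫_ℂ) l (𝓝 ⟪S x, y⟫_ℂ) := (hlim x).inner tendsto_const_nhds
    have h2 : Tendsto (fun i => ⟪x, T i y⟫_ℂ) l (𝓝 ⟪x, S y⟫_ℂ) := tendsto_const_nhds.inner (hlim y)
    exact tendsto_nhds_unique h1 (h2.congr' (hT.mono fun i hi => (hi.isSymmetric x y).symm))
  · have h1 : Tendsto (fun i => RCLike.re ⟪T i x, x⟫_ℂ) l (𝓝 (RCLike.re ⟪S x, x⟫_ℂ)) :=
      (RCLike.continuous_re.tendsto _).comp ((hlim x).inner tendsto_const_nhds)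
    exact ge_of_tendsto h1 (hT.mono fun i hi => hi.re_inner_nonneg_left x)

/-- **Vigier**: a decreasing net of positive operators converges strongly. -/
theorem vigier {ι : Type*} [SemilatticeSup ι] [Nonempty ι] (T : ι → H →L[ℂ] H)
    (hpos : ∀ i, (T i).IsPositive) (hanti : ∀ i j, i ≤ j → (T i - T j).IsPositive) :
    ∃ S : H →L[ℂ] H, S.IsPositive ∧ (∀ i, (T i - S).IsPositive) ∧
      ∀ ξ, Tendsto (fun i => T i ξ) atTop (𝓝 (S ξ)) := by
  obtain ⟨i0⟩ := ‹Nonempty ι›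
  set C : ℝ := ‖T i0‖ with hCdef
  have hC0 : 0 ≤ C := norm_nonneg _
  -- differences
  have hdiff : ∀ i j, i0 ≤ i → i ≤ j → ∀ ξ, ‖(T i - T j) ξ‖ ^ 2 ≤ C * (qf (T i) ξ - qf (T j) ξ) := by
    intro i j hi hij ξ
    rw [← qf_sub]
    refine norm_sq_le (hanti i j hij) (fun η => ?_) ξ
    have h1 := qf_nonneg (hanti i0 i hi) η
    rw [qf_sub] at h1
    have h2 := qf_nonneg (hpos j) η
    have h3 := qf_le_norm (T i0) η
    rw [qf_sub]
    linarith
  have hqanti : ∀ ξ, Antitone fun i => qf (T i) ξ := by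
    intro ξ i j hij
    have h := qf_nonneg (hanti i j hij) ξ
    rw [qf_sub] at h
    simpa using h
  have hlim : ∀ ξ, ∃ η, Tendsto (fun i => T i ξ) atTop (𝓝 η) := by
    intro ξ
    apply cauchySeq_tendsto_of_complete
    rw [Metric.cauchySeq_iff']
    intro ε hε
    have hbdd : BddBelow (Set.range fun i => qf (T i) ξ) := ⟨0, by
      rintro _ ⟨i, rfl⟩; exact qf_nonneg (hpos i) ξ⟩
    have hconv := tendsto_atTop_ciInf (hqanti ξ) hbdd
    set L := ⨅ i, qf (T i) ξ with hL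
    set δ : ℝ := ε ^ 2 / (4 * (C + 1)) with hδ
    have hδ0 : 0 < δ := by positivity
    have hev := (hconv.eventually (gt_mem_nhds (show L < L + δ by linarith)))
    have hev2 := hev.and (eventually_ge_atTop i0)
    obtain ⟨N, hN⟩ := hev2.exists
    refine ⟨N, fun n hn => ?_⟩
    have h1 := hdiff N n hN.2 hn ξ
    have h2 : L ≤ qf (T n) ξ := ciInf_le hbdd n
    have h3 : ‖(T N - T n) ξ‖ ^ 2 ≤ C * δ := by
      refine h1.trans ?_
      gcongr
      linarith [hN.1]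
    have h4 : C * δ < ε ^ 2 := by
      rw [hδ]
      have : C * (ε ^ 2 / (4 * (C + 1))) ≤ ε ^ 2 / 4 := by
        rw [mul_div_assoc', div_le_div_iff₀ (by positivity) (by norm_num)]
        nlinarith [sq_nonneg ε]
      have hε2 : 0 < ε ^ 2 := by positivity
      linarith
    have h5 : ‖(T N - T n) ξ‖ < ε := lt_of_pow_lt_pow_left₀ 2 hε.le (h3.trans_lt h4)
    rw [dist_eq_norm, norm_sub_rev]
    simpa using h5
  have hbound : ∀ᶠ i in atTop, ∀ ξ, ‖T i ξ‖ ≤ (2 * C) * ‖ξ‖ := by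
    filter_upwards [eventually_ge_atTop i0] with i hi ξ
    have h1 := hdiff i0 i le_rfl hi ξ
    have h2 := qf_le_norm (T i0) ξ
    have h3 := qf_nonneg (hpos i) ξ
    have h4 : ‖(T i0 - T i) ξ‖ ^ 2 ≤ (C * ‖ξ‖) ^ 2 := by
      refine h1.trans ?_
      have : C * (qf (T i0) ξ - qf (T i) ξ) ≤ C * (C * ‖ξ‖ ^ 2) := by
        gcongr
        linarith
      linarith [this]
    have h5 : ‖(T i0 - T i) ξ‖ ≤ C * ‖ξ‖ :=
      (pow_le_pow_iff_left₀ (norm_nonneg _) (by positivity) two_ne_zero).mp h4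
    have h6 : ‖T i0 ξ‖ ≤ C * ‖ξ‖ := (T i0).le_opNorm ξ
    have h7 : T i ξ = T i0 ξ - (T i0 - T i) ξ := by simp
    rw [h7]
    calc ‖T i0 ξ - (T i0 - T i) ξ‖ ≤ ‖T i0 ξ‖ + ‖(T i0 - T i) ξ‖ := norm_sub_le _ _
      _ ≤ C * ‖ξ‖ + C * ‖ξ‖ := add_le_add h6 h5
      _ = (2 * C) * ‖ξ‖ := by ring
  haveI : Nonempty ι := ⟨i0⟩
  obtain ⟨S, hS⟩ := lim_op T hbound hlim
  refine ⟨S, lim_pos hS (Eventually.of_forall hpos), fun i => ?_, hS⟩
  refine lim_pos (T := fun j => T i - T j) (fun ξ => ?_) ?_ (l := atTop)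
  · simpa using (hS ξ).const_sub (T i ξ)
  · filter_upwards [eventually_ge_atTop i] with j hj using hanti i j hj

/-- Sums of positive operators with bounded partial sums. -/
theorem pos_sum {ι : Type*} (T : ι → H →L[ℂ] H) (hpos : ∀ i, (T i).IsPositive) {C : ℝ}
    (hC : ∀ (F : Finset ι) (η : H), ∑ i ∈ F, qf (T i) η ≤ C * ‖η‖ ^ 2) :
    ∃ S : H →L[ℂ] H, S.IsPositive ∧ (∀ F : Finset ι, (S - ∑ i ∈ F, T i).IsPositive) ∧
      (∀ η, qf S η ≤ C * ‖η‖ ^ 2) ∧ ∀ ξ, HasSum (fun i => T i ξ) (S ξ) := by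
  classical
  have hsumpos : ∀ F : Finset ι, (∑ i ∈ F, T i).IsPositive := by
    intro F
    induction F using Finset.induction_on with
    | empty => simpa using isPositive_zero
    | insert a F ha ih => rw [Finset.sum_insert ha]; exact (hpos a).add ih
  have hone : ∀ c : ℝ, IsSelfAdjoint ((c : ℂ) • (1 : H →L[ℂ] H)) := by
    intro c
    rw [isSelfAdjoint_iff, star_smul, star_one]
    simp
  have hP : ∀ F : Finset ι, ((C : ℂ) • (1 : H →L[ℂ] H) - ∑ i ∈ F, T i).IsPositive := by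
    intro F
    refine ⟨?_, fun x => ?_⟩
    · have h1 : IsSelfAdjoint ((C : ℂ) • (1 : H →L[ℂ] H) - ∑ i ∈ F, T i) :=
        (hone C).sub (hsumpos F).isSelfAdjoint
      exact h1.isSymmetric
    · have h2 : qf ((C : ℂ) • (1 : H →L[ℂ] H) - ∑ i ∈ F, T i) x ≥ 0 := by
        rw [qf_sub, qf_smul_one, qf_sum]
        linarith [hC F x]
      have h3 : RCLike.re ⟪((C : ℂ) • (1 : H →L[ℂ] H) - ∑ i ∈ F, T i) x, x⟫_ℂ =
          qf ((C : ℂ) • (1 : H →L[ℂ] H) - ∑ i ∈ F, T i) x := by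
        rw [qf, ← inner_conj_symm]
        exact Complex.conj_re _
      rw [ContinuousLinearMap.reApplyInnerSelf_apply, h3]
      exact h2
  obtain ⟨S', hS', hS'2, hlim⟩ := vigier (fun F : Finset ι => (C : ℂ) • (1 : H →L[ℂ] H) - ∑ i ∈ F, T i)
    hP (fun F F' hFF' => by
      have : (C : ℂ) • (1 : H →L[ℂ] H) - ∑ i ∈ F, T i - ((C : ℂ) • (1 : H →L[ℂ] H) - ∑ i ∈ F', T i)
          = ∑ i ∈ F' \ F, T i := by
        rw [← Finset.sum_sdiff hFF']
        abel
      rw [this]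
      exact hsumpos _)
  have hsum : ∀ ξ, HasSum (fun i => T i ξ) (((C : ℂ) • (1 : H →L[ℂ] H) - S') ξ) := by
    intro ξ
    have h1 := (hlim ξ).const_sub (((C : ℂ) • (1 : H →L[ℂ] H)) ξ)
    have h2 : (fun F : Finset ι => ((C : ℂ) • (1 : H →L[ℂ] H)) ξ -
        ((C : ℂ) • (1 : H →L[ℂ] H) - ∑ i ∈ F, T i) ξ) = fun F : Finset ι => ∑ i ∈ F, T i ξ := by
      funext F
      rw [sub_apply, sub_sub_cancel, sum_apply]
    rw [h2] at h1
    exact h1
  have hlimF : ∀ ξ, Tendsto (fun F : Finset ι => (∑ i ∈ F, T i) ξ) atTop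
      (𝓝 (((C : ℂ) • (1 : H →L[ℂ] H) - S') ξ)) := by
    intro ξ
    have h := hsum ξ
    simp only [HasSum] at h
    simpa only [sum_apply, SummationFilter.unconditional_filter] using h
  refine ⟨(C : ℂ) • (1 : H →L[ℂ] H) - S', ?_, fun F => ?_, fun η => ?_, hsum⟩
  · exact lim_pos hlimF (Eventually.of_forall hsumpos)
  · refine lim_pos (T := fun F' : Finset ι => ∑ i ∈ F', T i - ∑ i ∈ F, T i) (fun ξ => ?_) ?_
      (l := atTop)
    · simpa using (hlimF ξ).sub_const ((∑ i ∈ F, T i) ξ)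
    · filter_upwards [eventually_ge_atTop F] with F' hF'
      rw [← Finset.sum_sdiff hF', add_sub_cancel_right]
      exact hsumpos _
  · rw [qf_sub, qf_smul_one]
    linarith [qf_nonneg hS' η]

omit [CompleteSpace H] in
/-- The sum commutes with `U` if `U` permutes the terms. -/
theorem sum_comm {ι : Type*} {T : ι → H →L[ℂ] H} {S : H →L[ℂ] H}
    (hS : ∀ ξ, HasSum (fun i => T i ξ) (S ξ)) (U : H →L[ℂ] H) (σ : Equiv.Perm ι)
    (h : ∀ i ξ, U (T i ξ) = T (σ i) (U ξ)) (ξ : H) : U (S ξ) = S (U ξ) := by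
  have h1 := (hS ξ).mapL U
  have h2 : HasSum (fun i => T (σ i) (U ξ)) (S (U ξ)) := (Equiv.hasSum_iff σ).mpr (hS (U ξ))
  simp only [h] at h1
  exact h1.unique h2


/-! ### Resolvents -/

omit [CompleteSpace H] in
/-- Jensen's inequality: for `a ≥ 0` and a unit vector `ξ`, `⟪ξ, (1+a)⁻¹ ξ⟫ (1 + ⟪ξ, a ξ⟫) ≥ 1`. -/
theorem jensen {a y : H →L[ℂ] H} (hy : y.IsPositive) (hya : y * (1 + a) = 1) {ξ : H}
    (hξ : ‖ξ‖ = 1) : 1 ≤ qf y ξ * (1 + qf a ξ) := by
  have h := cs hy ξ ((1 + a) ξ)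
  have h1 : y ((1 + a) ξ) = ξ := by
    have := congrArg (fun T : H →L[ℂ] H => T ξ) hya
    simpa using this
  have h2 : qf y ((1 + a) ξ) = 1 + qf a ξ := by
    have h3 : qf (1 + a) ξ = 1 + qf a ξ := by rw [qf_add, qf_one, hξ]; norm_num
    rw [← h3, qf, h1, qf, ← inner_conj_symm, Complex.conj_re]
  rw [h1, h2, inner_self_eq_norm_sq_to_K, hξ] at h
  simpa using h

omit [CompleteSpace H] in
theorem le_iff {S T : H →L[ℂ] H} : S ≤ T ↔ (T - S).IsPositive := Iff.rfl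

omit [CompleteSpace H] in
theorem one_pos_op : (1 : H →L[ℂ] H).IsPositive := isPositive_one

theorem spos_one : IsStrictlyPositive (1 : H →L[ℂ] H) :=
  ⟨zero_le_one, isUnit_one⟩

/-- `1 + a` is invertible for `a ≥ 0`. -/
theorem isUnit_one_add {a : H →L[ℂ] H} (ha : a.IsPositive) : IsUnit (1 + a) := by
  have h1 : IsStrictlyPositive (1 : H →L[ℂ] H) := spos_one
  have ha' : 0 ≤ a := (ContinuousLinearMap.nonneg_iff_isPositive a).mpr ha
  exact (h1.add_nonneg ha').isUnit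

/-- the resolvent `(1+a)⁻¹` -/
noncomputable def res (a : H →L[ℂ] H) : H →L[ℂ] H := Ring.inverse (1 + a)

theorem res_mul {a : H →L[ℂ] H} (ha : a.IsPositive) : res a * (1 + a) = 1 :=
  Ring.inverse_mul_cancel _ (isUnit_one_add ha)

theorem mul_res {a : H →L[ℂ] H} (ha : a.IsPositive) : (1 + a) * res a = 1 :=
  Ring.mul_inverse_cancel _ (isUnit_one_add ha)

theorem res_anti {a b : H →L[ℂ] H} (ha : a.IsPositive) (hab : (b - a).IsPositive) :
    (res a - res b).IsPositive := by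
  have ha' : 0 ≤ a := (ContinuousLinearMap.nonneg_iff_isPositive a).mpr ha
  have h1 : IsStrictlyPositive (1 + a) := IsStrictlyPositive.add_nonneg spos_one ha'
  have h2 : 1 + a ≤ 1 + b := by
    rw [le_iff]
    simpa using hab
  exact CStarAlgebra.ringInverse_le_ringInverse h2 h1

theorem res_pos {a : H →L[ℂ] H} (ha : a.IsPositive) : (res a).IsPositive := by
  refine ⟨?_, fun x => ?_⟩
  · have h1 : IsSelfAdjoint (1 + a) := (IsSelfAdjoint.one _).add ha.isSelfAdjoint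
    have h2 : IsSelfAdjoint (res a) := by
      rw [isSelfAdjoint_iff, res, ← Ring.inverse_star, h1.star_eq]
    exact h2.isSymmetric
  · have e : x = (1 + a) (res a x) := by
      have := congrArg (fun T : H →L[ℂ] H => T x) (mul_res ha)
      simpa using this.symm
    have h3 : 0 ≤ qf (1 + a) (res a x) := by
      rw [qf_add]
      exact add_nonneg (qf_nonneg one_pos_op _) (qf_nonneg ha _)
    rw [ContinuousLinearMap.reApplyInnerSelf_apply]
    rw [qf, ← e] at h3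
    exact h3

/-- `res` commutes with what commutes with `a` -/
theorem res_comm {a U : H →L[ℂ] H} (ha : a.IsPositive) (h : U * a = a * U) :
    U * res a = res a * U := by
  have h1 : U * (1 + a) = (1 + a) * U := by rw [mul_add, add_mul, h, mul_one, one_mul]
  calc U * res a = (res a * (1 + a)) * (U * res a) := by rw [res_mul ha, one_mul]
    _ = res a * ((1 + a) * U) * res a := by simp only [mul_assoc]
    _ = res a * (U * (1 + a)) * res a := by rw [h1]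
    _ = res a * U * ((1 + a) * res a) := by simp only [mul_assoc]
    _ = res a * U := by rw [mul_res ha, mul_one]

/-- **Resolvent argument.** Positive operators `T i`; if every strong limit of the resolvents of the
partial sums is scalar and the sum converges at one unit vector with value `≤ C`, then all partial
sums are `≤ C`. -/
theorem resolvent {ι : Type*} (T : ι → H →L[ℂ] H) (hpos : ∀ i, (T i).IsPositive)
    {C : ℝ} {ξ₀ : H} (h0 : ‖ξ₀‖ = 1) (hC : ∀ F : Finset ι, ∑ i ∈ F, qf (T i) ξ₀ ≤ C)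
    (hsc : ∀ S : H →L[ℂ] H, S.IsPositive →
      (∀ ξ, Tendsto (fun F : Finset ι => res (∑ i ∈ F, T i) ξ) atTop (𝓝 (S ξ))) →
      ∃ c : ℂ, S = c • (1 : H →L[ℂ] H))
    (F : Finset ι) (η : H) : ∑ i ∈ F, qf (T i) η ≤ C * ‖η‖ ^ 2 := by
  classical
  have hsumpos : ∀ F : Finset ι, (∑ i ∈ F, T i).IsPositive := by
    intro F
    induction F using Finset.induction_on with
    | empty => simpa using isPositive_zero
    | insert a F ha ih => rw [Finset.sum_insert ha]; exact (hpos a).add ih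
  obtain ⟨S, hS, hS2, hlim⟩ := vigier (fun F : Finset ι => res (∑ i ∈ F, T i))
    (fun F => res_pos (hsumpos F)) (fun F F' hFF' => res_anti (hsumpos F) (by
      rw [← Finset.sum_sdiff hFF', add_sub_cancel_right]; exact hsumpos _))
  obtain ⟨c, hc⟩ := hsc S hS hlim
  have hC0 : 0 ≤ C := by simpa using hC ∅
  -- the value of the scalar
  set r : ℝ := c.re with hr
  have hqS : ∀ ξ, qf S ξ = r * ‖ξ‖ ^ 2 := by
    intro ξ
    have h := qf_one ξ
    simp only [qf, one_apply_eq_self] at h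
    rw [qf, hc, smul_apply, inner_smul_right, one_apply_eq_self,
      inner_self_eq_norm_sq_to_K]
    have e : ((‖ξ‖ : ℂ)) ^ 2 = ((‖ξ‖ ^ 2 : ℝ) : ℂ) := by push_cast; rfl
    change (c * ((‖ξ‖ : ℂ)) ^ 2).re = _
    rw [e, Complex.re_mul_ofReal]
  have hq : 1 ≤ r * (1 + C) := by
    have h1 : ∀ F : Finset ι, 1 ≤ qf (res (∑ i ∈ F, T i)) ξ₀ * (1 + C) := by
      intro F
      have h2 := jensen (res_pos (hsumpos F)) (res_mul (hsumpos F)) h0
      rw [qf_sum] at h2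
      refine h2.trans ?_
      have := qf_nonneg (res_pos (hsumpos F)) ξ₀
      gcongr
      exact hC F
    have h3 : Tendsto (fun F : Finset ι => qf (res (∑ i ∈ F, T i)) ξ₀) atTop (𝓝 (qf S ξ₀)) :=
      (Complex.continuous_re.tendsto _).comp (tendsto_const_nhds.inner (hlim ξ₀))
    have h4 := ge_of_tendsto (h3.mul_const (1 + C)) (Eventually.of_forall h1)
    rw [hqS, h0] at h4
    simpa using h4
  have hr0 : 0 < r := by
    by_contra hneg
    push Not at hneg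
    nlinarith
  -- a_F ≤ 1/c - 1
  have hle : ∀ ξ, r * ‖ξ‖ ^ 2 ≤ qf (res (∑ i ∈ F, T i)) ξ := by
    intro ξ
    have := qf_nonneg (hS2 F) ξ
    rw [qf_sub, hqS] at this
    linarith
  have hap := hsumpos F
  set a := ∑ i ∈ F, T i with ha
  -- use the Cauchy–Schwarz inequality for `1 + a`
  have h1a : (1 + a).IsPositive := one_pos_op.add hap
  have h5 : r * (‖η‖ ^ 2 + qf a η) ≤ ‖η‖ ^ 2 := by
    -- ζ = (1+a) η ; r ‖ζ‖² ≤ ⟪ζ, res a ζ⟫ = ⟪(1+a) η, η⟫
    have h6 := hle ((1 + a) η)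
    have h7 : res a ((1 + a) η) = η := by
      have := congrArg (fun T : H →L[ℂ] H => T η) (res_mul hap)
      simpa using this
    have h8 : qf (res a) ((1 + a) η) = qf (1 + a) η := by
      rw [qf, h7, qf, ← inner_conj_symm, Complex.conj_re]
    rw [h8] at h6
    have h9 : qf (1 + a) η = ‖η‖ ^ 2 + qf a η := by rw [qf_add, qf_one]
    have h10 : qf (1 + a) η ≤ ‖η‖ * ‖(1 + a) η‖ :=
      (Complex.re_le_norm _).trans (norm_inner_le_norm _ _)
    by_cases hz : ‖(1 + a) η‖ = 0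
    · have h11 : qf (1 + a) η ≤ 0 := by rw [hz, mul_zero] at h10; exact h10
      have h12 := qf_nonneg hap η
      rw [h9] at h11
      have h13 : ‖η‖ ^ 2 + qf a η = 0 := le_antisymm h11 (by positivity)
      rw [h13, mul_zero]
      positivity
    · have hzp : 0 < ‖(1 + a) η‖ := lt_of_le_of_ne (norm_nonneg _) (Ne.symm hz)
      have h14 : r * ‖(1 + a) η‖ ≤ ‖η‖ := by
        have : r * ‖(1 + a) η‖ * ‖(1 + a) η‖ ≤ ‖η‖ * ‖(1 + a) η‖ := by
          calc r * ‖(1 + a) η‖ * ‖(1 + a) η‖ = r * ‖(1 + a) η‖ ^ 2 := by ring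
            _ ≤ _ := h6.trans h10
        exact le_of_mul_le_mul_right this hzp
      rw [← h9]
      calc r * qf (1 + a) η ≤ r * (‖η‖ * ‖(1 + a) η‖) := by gcongr
        _ = ‖η‖ * (r * ‖(1 + a) η‖) := by ring
        _ ≤ ‖η‖ * ‖η‖ := by gcongr
        _ = ‖η‖ ^ 2 := by ring
  have h15 : qf a η ≤ C * ‖η‖ ^ 2 := by
    have h16 : (0 : ℝ) < 1 + C := by positivity
    have h17 : ‖η‖ ^ 2 + qf a η ≤ (1 + C) * ‖η‖ ^ 2 := by
      have h18 : 0 ≤ ‖η‖ ^ 2 + qf a η := by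
        have := qf_nonneg hap η
        positivity
      calc ‖η‖ ^ 2 + qf a η = 1 * (‖η‖ ^ 2 + qf a η) := by ring
        _ ≤ (r * (1 + C)) * (‖η‖ ^ 2 + qf a η) := by gcongr
        _ = (1 + C) * (r * (‖η‖ ^ 2 + qf a η)) := by ring
        _ ≤ (1 + C) * ‖η‖ ^ 2 := by gcongr
    linarith
  rw [ha, qf_sum] at h15
  exact h15

end Vale.Agent.P092.H144
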