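import Vale.Agent.P092.SR.Blocks
import Vale.Agent.P092.H144.Mono
import Vale.Agent.P092.H911.TrStmt

/-!
P092, project B (helper144): block [MATCH], from the trace property `TrStmt`.
-/

set_option linter.all false

open scoped InnerProductSpace
open Filter Topology ContinuousLinearMap

namespace Vale.Agent.P092.H144

open Vale.Agent.P092.SR

/-! ### Group part -/

/-- A nonnegative function on `Γ`, invariant on the left under `Θ₁` and on the right under `Θ₂`,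
summable over `Γ ⧸ Θ₂`, vanishes if `Θ₁` is infinite and meets the conjugates of `Θ₂` in finite
sets. -/
theorem zero_of_inv {Γ : Type} [Group Γ] (Θ₁ Θ₂ : Subgroup Γ) (hinf : (Θ₁ : Set Γ).Infinite)
    (hfin : ∀ g : Γ, {h : Γ | h ∈ Θ₁ ∧ g⁻¹ * h * g ∈ Θ₂}.Finite) (f : Γ → ℝ)
    (hl : ∀ h ∈ Θ₁, ∀ g, f (h * g) = f g) (hr : ∀ h ∈ Θ₂, ∀ g, f (g * h) = f g)
    (hs : Summable fun q : Γ ⧸ Θ₂ => f q.out) (g : Γ) : f g = 0 := by
  by_contra hne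
  -- the set of cosets of `h g`, `h ∈ Θ₁`
  set S : Set (Γ ⧸ Θ₂) := (fun h : Γ => (QuotientGroup.mk (h * g) : Γ ⧸ Θ₂)) '' (Θ₁ : Set Γ) with hS
  have hSinf : S.Infinite := by
    intro hSf
    apply hinf
    -- finite fibres
    refine Set.Finite.of_finite_fibers (f := fun h : Γ => (QuotientGroup.mk (h * g) : Γ ⧸ Θ₂))
      hSf ?_
    intro x hx
    obtain ⟨h₀, hh₀, rfl⟩ := hx
    refine ((hfin g).image fun u => h₀ * u).subset ?_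
    rintro h ⟨hh, hx⟩
    have hx' : (QuotientGroup.mk (h₀ * g) : Γ ⧸ Θ₂) = QuotientGroup.mk (h * g) := by
      simpa using hx.symm
    rw [QuotientGroup.eq] at hx'
    refine ⟨h₀⁻¹ * h, ⟨Θ₁.mul_mem (Θ₁.inv_mem hh₀) hh, ?_⟩, by group⟩
    have e : g⁻¹ * (h₀⁻¹ * h) * g = (h₀ * g)⁻¹ * (h * g) := by group
    rw [e]
    exact hx'
  have hval : ∀ x ∈ S, f x.out = f g := by
    rintro _ ⟨h, hh, rfl⟩
    obtain ⟨u, hu⟩ := QuotientGroup.mk_out_eq_mul Θ₂ (h * g)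
    simp only
    rw [hu, hr _ u.2, hl h hh]
  -- summable over `S`
  have h1 := hs.tendsto_cofinite_zero
  have h2 : ∀ᶠ q : Γ ⧸ Θ₂ in cofinite, |f q.out| < |f g| := by
    have := h1.abs
    rw [abs_zero] at this
    exact this.eventually (gt_mem_nhds (abs_pos.mpr hne))
  rw [eventually_cofinite] at h2
  apply hSinf
  refine h2.subset fun x hx => ?_
  simp only [Set.mem_setOf_eq, not_lt]
  rw [hval x hx]


theorem summable_quot_of_le {Γ : Type} [Group Γ] {Θ Θ' : Subgroup Γ} (h : Θ ≤ Θ')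
    (hfi : Θ.relIndex Θ' ≠ 0) (φ : Γ → ℝ) (h0 : ∀ g, 0 ≤ φ g)
    (hinv : ∀ g, ∀ u ∈ Θ', φ (g * u) = φ g) (hs : Summable fun q : Γ ⧸ Θ' => φ q.out) :
    Summable fun q : Γ ⧸ Θ => φ q.out := by
  haveI : (Θ.subgroupOf Θ').FiniteIndex := ⟨hfi⟩
  haveI : Finite (Θ' ⧸ Θ.subgroupOf Θ') := Subgroup.finite_quotient_of_finiteIndex
  haveI := Fintype.ofFinite (Θ' ⧸ Θ.subgroupOf Θ')
  let e := Subgroup.quotientEquivProdOfLE h
  have h1 : Summable fun p : (Γ ⧸ Θ') × (Θ' ⧸ Θ.subgroupOf Θ') => φ p.1.out := by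
    rw [summable_prod_of_nonneg (fun p => h0 _)]
    refine ⟨fun x => (hasSum_fintype _).summable, ?_⟩
    have : (fun x : Γ ⧸ Θ' => ∑' y : Θ' ⧸ Θ.subgroupOf Θ', φ (x, y).1.out) =
        fun x : Γ ⧸ Θ' => (Fintype.card (Θ' ⧸ Θ.subgroupOf Θ') : ℝ) * φ x.out := by
      funext x
      rw [tsum_fintype]
      simp
    rw [this]
    exact hs.mul_left _
  have h2 := (Equiv.summable_iff e).mpr h1
  refine h2.congr fun q => ?_
  have h3 : (e q).1 = (QuotientGroup.mk q.out : Γ ⧸ Θ') := by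
    conv_lhs => rw [← QuotientGroup.out_eq' q]
    rfl
  obtain ⟨u, hu⟩ := QuotientGroup.mk_out_eq_mul Θ' q.out
  simp only [Function.comp]
  rw [h3, hu, hinv _ _ u.2]

theorem infinite_comap {Γ G : Type} [Group Γ] [Group G] [TopologicalSpace G] (p : Γ →* G)
    (hG : GoodGrp G) (hd : DenseRange p) (K : Subgroup G) (hK : COS K) :
    ((K.comap p : Subgroup Γ) : Set Γ).Infinite := by
  haveI := hG.t2
  intro hfin
  have hKo : IsOpen (K : Set G) := hK.2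
  have hfin2 : (p '' ((K.comap p : Subgroup Γ) : Set Γ)).Finite := hfin.image _
  have hsub : (K : Set G) ⊆ p '' ((K.comap p : Subgroup Γ) : Set Γ) := by
    have hcl : IsClosed (p '' ((K.comap p : Subgroup Γ) : Set Γ)) := hfin2.isClosed
    rw [← hcl.closure_eq]
    refine (Dense.open_subset_closure_inter hd hKo).trans ?_
    apply closure_mono
    rintro _ ⟨hx, ⟨g, rfl⟩⟩
    exact ⟨g, hx, rfl⟩
  have hKfin : (K : Set G).Finite := hfin2.subset hsub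
  apply hG.nondisc
  have : ({1} : Set G) = (K : Set G) ∩ ((K : Set G) \ {1})ᶜ := by
    ext x
    constructor
    · rintro rfl
      exact ⟨K.one_mem, fun h => h.2 rfl⟩
    · rintro ⟨hx, h⟩
      by_contra hx1
      exact h ⟨hx, hx1⟩
  rw [this]
  exact hKo.inter (hKfin.subset Set.diff_subset).isClosed.isOpen_compl

/-! ### Operator part -/

section op

variable {ι Γ ℋ : Type} [Fintype ι] [Group Γ] [NormedAddCommGroup ℋ] [InnerProductSpace ℂ ℋ]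
  [CompleteSpace ℋ]

theorem rep_inv_apply (T : Γ →* (ℋ →L[ℂ] ℋ)) (g : Γ) (v : ℋ) : T g (T g⁻¹ v) = v := by
  have h : T g * T g⁻¹ = 1 := by rw [← map_mul, mul_inv_cancel, map_one]
  exact congrArg (fun S : ℋ →L[ℂ] ℋ => S v) h

theorem rep_inv_apply' (T : Γ →* (ℋ →L[ℂ] ℋ)) (g : Γ) (v : ℋ) : T g⁻¹ (T g v) = v := by
  have h : T g⁻¹ * T g = 1 := by rw [← map_mul, inv_mul_cancel, map_one]
  exact congrArg (fun S : ℋ →L[ℂ] ℋ => S v) h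

theorem rep_norm {T : Γ →* (ℋ →L[ℂ] ℋ)} (h : ∀ g, adjoint (T g) = T g⁻¹) (g : Γ) (v : ℋ) :
    ‖T g v‖ = ‖v‖ := by
  have h1 : ⟪T g v, T g v⟫_ℂ = ⟪v, v⟫_ℂ := by
    rw [← adjoint_inner_left, h g, rep_inv_apply']
  rw [inner_self_eq_norm_sq_to_K, inner_self_eq_norm_sq_to_K] at h1
  have h2 : ‖T g v‖ ^ 2 = ‖v‖ ^ 2 := by exact_mod_cast h1
  exact (pow_left_inj₀ (norm_nonneg _) (norm_nonneg _) two_ne_zero).mp h2

/-- an operator commuting with `R₁`, `R₂` on the relevant sets vanishing on the frame is zero -/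
theorem zero_of_frame {V R₁ R₂ : Γ →* (ℋ →L[ℂ] ℋ)} {ξ : ι → ℋ} (hT : Tri V R₁ R₂ ξ)
    (y : ℋ →L[ℂ] ℋ) (hy : ∀ k g h, y (R₁ g (R₂ h (ξ k))) = 0) : y = 0 := by
  have h1 : adjoint y = 0 := by
    ext1 η
    have h2 := hT.frame (adjoint y η)
    have h3 : (fun p : ι × Γ × Γ => ‖⟪R₁ p.2.1 (R₂ p.2.2 (ξ p.1)), adjoint y η⟫_ℂ‖ ^ 2) =
        fun _ => (0 : ℝ) := by
      funext p
      rw [adjoint_inner_right, hy, inner_zero_left]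
      simp
    rw [h3] at h2
    have h4 : (0 : ℝ) = ‖adjoint y η‖ ^ 2 := hasSum_zero.unique h2
    have h5 : ‖adjoint y η‖ = 0 := by
      have := h4.symm
      exact pow_eq_zero_iff (two_ne_zero) |>.mp this
    simpa using h5
  have h6 := congrArg adjoint h1
  rwa [adjoint_adjoint, map_zero] at h6


/-- the trace property makes the Hilbert–Schmidt norm invariant under right multiplication by `V h` -/
theorem hs_inv (hTr : TrStmt) {V R₁ R₂ : Γ →* (ℋ →L[ℂ] ℋ)} {ξ : ι → ℋ} (hT : Tri V R₁ R₂ ξ)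
    (Θ : Subgroup Γ) (x : ℋ →L[ℂ] ℋ) (hxR : ∀ u ∈ Θ, x * R₁ u = R₁ u * x)
    (hxR₂ : ∀ u, x * R₂ u = R₂ u * x) (h : Γ) {c c' : ℝ}
    (hs : HasSum (fun p : ι × (Γ ⧸ Θ) => ‖x (R₁ (p.2.out)⁻¹ (ξ p.1))‖ ^ 2) c)
    (hs' : HasSum (fun p : ι × (Γ ⧸ Θ) => ‖x (V h (R₁ (p.2.out)⁻¹ (ξ p.1)))‖ ^ 2) c') : c' = c := by
  have hs2 := hTr V R₁ R₂ ξ hT Θ x hxR hxR₂ _ hs
  have hs4 := hTr V R₁ R₂ ξ hT Θ (x * V h) (fun u hu => by
    rw [mul_assoc, hT.comm₁, ← mul_assoc, hxR u hu, mul_assoc]) (fun u => by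
    rw [mul_assoc, hT.comm₂, ← mul_assoc, hxR₂ u, mul_assoc]) _ hs'
  have e4 : (fun p : ι × (Γ ⧸ Θ) => ‖adjoint (x * V h) (R₁ (p.2.out)⁻¹ (ξ p.1))‖ ^ 2) =
      fun p : ι × (Γ ⧸ Θ) => ‖adjoint x (R₁ (p.2.out)⁻¹ (ξ p.1))‖ ^ 2 := by
    funext p
    have e5 : adjoint (x * V h) = V h⁻¹ * adjoint x := by
      rw [← star_eq_adjoint, star_mul, star_eq_adjoint, star_eq_adjoint, hT.adjV]
    rw [e5]
    change ‖V h⁻¹ (adjoint x (R₁ (p.2.out)⁻¹ (ξ p.1)))‖ ^ 2 = _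
    rw [rep_norm hT.adjV]
  rw [e4] at hs4
  exact hs4.unique hs2

/-- summability over a smaller group of finite index -/
theorem eta_summable {R₁ : Γ →* (ℋ →L[ℂ] ℋ)} (hadj : ∀ g, adjoint (R₁ g) = R₁ g⁻¹)
    {a : ℋ →L[ℂ] ℋ} (hapos : a.IsPositive) {Θ Θ' : Subgroup Γ} (hle : Θ ≤ Θ')
    (hfi : Θ.relIndex Θ' ≠ 0) (haR : ∀ h ∈ Θ', ∀ v, a (R₁ h v) = R₁ h (a v)) (ξ : ι → ℋ)
    (hs : ∀ k, Summable fun x : Γ ⧸ Θ' => qf a (R₁ (x.out)⁻¹ (ξ k))) :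
    Summable fun p : ι × (Γ ⧸ Θ) => ‖a (R₁ (p.2.out)⁻¹ (ξ p.1))‖ ^ 2 := by
  have h1 : ∀ k : ι, Summable fun x : Γ ⧸ Θ => ‖a (R₁ (x.out)⁻¹ (ξ k))‖ ^ 2 := by
    intro k
    have h2 : Summable fun x : Γ ⧸ Θ => qf a (R₁ (x.out)⁻¹ (ξ k)) := by
      refine summable_quot_of_le hle hfi (fun g => qf a (R₁ g⁻¹ (ξ k)))
        (fun g => qf_nonneg hapos _) (fun g u hu => ?_) (hs k)
      have e : R₁ (g * u)⁻¹ (ξ k) = R₁ u⁻¹ (R₁ g⁻¹ (ξ k)) := by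
        rw [mul_inv_rev, map_mul]; rfl
      rw [e, qf, haR _ (Θ'.inv_mem hu), ← adjoint_inner_left, hadj, inv_inv,
        rep_inv_apply R₁ u, qf]
    refine Summable.of_nonneg_of_le (fun _ => by positivity) (fun x => ?_) (h2.mul_left ‖a‖)
    exact norm_sq_le hapos (fun v => qf_le_norm a v) _
  rw [summable_prod_of_nonneg (fun _ => by positivity)]
  exact ⟨h1, (hasSum_fintype _).summable⟩

theorem real_aux {Q X : Type} (u : Q → X → ℝ) (w : X → ℝ) (C : ℝ) (hu0 : ∀ q p, 0 ≤ u q p)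
    (hu : ∀ q, Summable (u q)) (hw : Summable w)
    (hF : ∀ (F : Finset Q) (p : X), ∑ q ∈ F, u q p ≤ C * w p) :
    Summable fun q => ∑' p, u q p := by
  refine summable_of_sum_le (c := C * ∑' p, w p) (fun q => tsum_nonneg (hu0 q)) (fun F => ?_)
  have h1 : ∑ q ∈ F, ∑' p, u q p = ∑' p, ∑ q ∈ F, u q p :=
    (Summable.tsum_finsetSum fun q _ => hu q).symm
  rw [h1, ← tsum_mul_left]
  exact Summable.tsum_le_tsum (fun p => hF F p) (summable_sum fun q _ => hu q) (hw.mul_left _)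

omit [Fintype ι] in
theorem fs_summable {V : Γ →* (ℋ →L[ℂ] ℋ)} (hadj : ∀ g, adjoint (V g) = V g⁻¹)
    (b : ℋ →L[ℂ] ℋ) {X : Type} (η : X → ℋ) (hη : Summable fun p => ‖η p‖ ^ 2) (g : Γ) :
    Summable fun p => ‖b (V g (η p))‖ ^ 2 := by
  refine Summable.of_nonneg_of_le (fun _ => by positivity) (fun p => ?_) (hη.mul_left (‖b‖ ^ 2))
  have h1 := b.le_opNorm (V g (η p))
  rw [rep_norm hadj] at h1
  have h2 := pow_le_pow_left₀ (norm_nonneg _) h1 2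
  rwa [mul_pow] at h2

omit [Fintype ι] in
/-- `∑_g ∑_p ‖b V(g)⁻¹ η_p‖² < ∞` -/
theorem coset_summable {V : Γ →* (ℋ →L[ℂ] ℋ)} (hadj : ∀ g, adjoint (V g) = V g⁻¹)
    {b : ℋ →L[ℂ] ℋ} (hbpos : b.IsPositive) {Θ₂ : Subgroup Γ} {d : ℝ} {X : Type} (η : X → ℋ)
    (hη : Summable fun p => ‖η p‖ ^ 2)
    (hbd : ∀ ζ : ℋ, HasSum (fun x : Γ ⧸ Θ₂ => qf b (V (x.out)⁻¹ ζ)) (d * ‖ζ‖ ^ 2)) :
    Summable fun x : Γ ⧸ Θ₂ => ∑' p, ‖b (V (x.out)⁻¹ (η p))‖ ^ 2 := by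
  refine real_aux (fun (x : Γ ⧸ Θ₂) (p : X) => ‖b (V (x.out)⁻¹ (η p))‖ ^ 2) (fun p => ‖η p‖ ^ 2)
    (‖b‖ * d) (fun _ _ => by positivity) (fun x => fs_summable hadj b η hη _) hη (fun F p => ?_)
  have h3 : ∑ x ∈ F, qf b (V (x.out)⁻¹ (η p)) ≤ d * ‖η p‖ ^ 2 :=
    sum_le_hasSum F (fun x _ => qf_nonneg hbpos _) (hbd (η p))
  have h4 : ∀ x : Γ ⧸ Θ₂, ‖b (V (x.out)⁻¹ (η p))‖ ^ 2 ≤ ‖b‖ * qf b (V (x.out)⁻¹ (η p)) :=
    fun x => norm_sq_le hbpos (fun v => qf_le_norm b v) _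
  have h5 := Finset.sum_le_sum fun x (_ : x ∈ F) => h4 x
  rw [← Finset.mul_sum] at h5
  have h6 := mul_le_mul_of_nonneg_left h3 (norm_nonneg b)
  rw [← mul_assoc] at h6
  exact h5.trans h6

/-- if `b V(g)⁻¹ a = 0` for all `g` then `a = 0` or `b = 0` -/
theorem end_zero {V : Γ →* (ℋ →L[ℂ] ℋ)} {a b : ℋ →L[ℂ] ℋ} (hbpos : b.IsPositive)
    {Θ₂ : Subgroup Γ} {d : ℝ}
    (hbd : ∀ ζ : ℋ, HasSum (fun x : Γ ⧸ Θ₂ => qf b (V (x.out)⁻¹ ζ)) (d * ‖ζ‖ ^ 2))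
    (hx0 : ∀ g ζ, b (V g⁻¹ (a ζ)) = 0) : a = 0 ∨ b = 0 := by
  by_cases ha' : a = 0
  · exact Or.inl ha'
  right
  obtain ⟨ζ, hζ⟩ : ∃ ζ, a ζ ≠ 0 := by
    by_contra hcon
    push Not at hcon
    exact ha' (ContinuousLinearMap.ext fun ζ => hcon ζ)
  have hd0 : d = 0 := by
    have h1 := hbd (a ζ)
    have h2 : (fun x : Γ ⧸ Θ₂ => qf b (V (x.out)⁻¹ (a ζ))) = fun _ => (0 : ℝ) := by
      funext x
      rw [qf, hx0, inner_zero_right]; rfl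
    rw [h2] at h1
    have h4 : (0 : ℝ) = d * ‖a ζ‖ ^ 2 := hasSum_zero.unique h1
    have h5 : ‖a ζ‖ ^ 2 ≠ 0 := by
      have := norm_pos_iff.mpr hζ
      positivity
    exact (mul_eq_zero.mp h4.symm).resolve_right h5
  ext1 v
  have h1 := hbd (V ((QuotientGroup.mk 1 : Γ ⧸ Θ₂).out) v)
  rw [hd0, zero_mul] at h1
  have h2 := sum_le_hasSum {(QuotientGroup.mk 1 : Γ ⧸ Θ₂)} (fun x _ => qf_nonneg hbpos
      (V (x.out)⁻¹ (V ((QuotientGroup.mk 1 : Γ ⧸ Θ₂).out) v))) h1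
  rw [Finset.sum_singleton, rep_inv_apply'] at h2
  have h3 := norm_sq_le hbpos (fun v => qf_le_norm b v) v
  have h4 : ‖b v‖ ^ 2 ≤ 0 := h3.trans (mul_nonpos_of_nonneg_of_nonpos (norm_nonneg _) h2)
  have h5 : ‖b v‖ = 0 := by
    have h6 : ‖b v‖ ^ 2 = 0 := le_antisymm h4 (by positivity)
    exact pow_eq_zero_iff (two_ne_zero) |>.mp h6
  simpa using h5

end op

theorem relIndex_comap_inf {Γ H : Type} [Group Γ] [Group H] [TopologicalSpace H]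
    [IsTopologicalGroup H] (q : Γ →* H) (L₁ L₂ : Subgroup H) (h₁ : COS L₁) (h₂ : COS L₂) :
    ((L₁ ⊓ L₂).comap q).relIndex (L₁.comap q) ≠ 0 := by
  apply Subgroup.relIndex_comap_ne_zero
  haveI : CompactSpace L₁ := isCompact_iff_compactSpace.mp h₁.1
  have ho : IsOpen (((L₁ ⊓ L₂).subgroupOf L₁ : Subgroup L₁) : Set L₁) := by
    have : (((L₁ ⊓ L₂).subgroupOf L₁ : Subgroup L₁) : Set L₁) =
        (Subtype.val : L₁ → H) ⁻¹' (((L₁ ⊓ L₂ : Subgroup H)) : Set H) := rfl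
    rw [this]
    exact (h₁.2.inter h₂.2).preimage continuous_subtype_val
  haveI := Subgroup.quotient_finite_of_isOpen _ ho
  exact (Subgroup.finiteIndex_of_finite_quotient (H := (L₁ ⊓ L₂).subgroupOf L₁)).index_ne_zero

theorem conj_finite {Γ G₁ G₂ : Type} [Group Γ] [Group G₁] [Group G₂] [TopologicalSpace G₁]
    [TopologicalSpace G₂] [IsTopologicalGroup G₂] {p₁ : Γ →* G₁} {p₂ : Γ →* G₂}
    (hIrr : Irr p₁ p₂) {K₁ : Subgroup G₁} {K₂ : Subgroup G₂} (hK₁ : COS K₁) (hK₂ : COS K₂) (g : Γ) :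
    {h : Γ | h ∈ K₁.comap p₁ ∧ g⁻¹ * h * g ∈ K₂.comap p₂}.Finite := by
  have h1 := hIrr.disc (K₁ : Set G₁) ((fun x => p₂ g * x * (p₂ g)⁻¹) '' (K₂ : Set G₂)) hK₁.1
    (hK₂.1.image (by fun_prop))
  refine h1.subset ?_
  rintro h ⟨hh1, hh2⟩
  refine ⟨hh1, p₂ (g⁻¹ * h * g), hh2, ?_⟩
  simp only [map_mul, map_inv]
  group

theorem matchStmt_of (hTr : TrStmt) : MatchStmt := by
  intro ι Γ G₁ G₂ H ℋ _ _ _ _ _ _ _ _ _ _ _ V R₁ R₂ ξ p₁ p₂ q hT hG₁ hG₂ hH hIrr K₁ K₂ L₁ L₂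
    hK₁ hK₂ hL₁ hL₂ a b ha hb ha0 hb0 c d hac hbd
  haveI := hG₂.top
  haveI := hH.top
  have hapos : a.IsPositive := (ContinuousLinearMap.nonneg_iff_isPositive a).mp ha0
  have hbpos : b.IsPositive := (ContinuousLinearMap.nonneg_iff_isPositive b).mp hb0
  -- commutation of `a`, `b`
  have haV : ∀ h ∈ K₁.comap p₁, ∀ v, a (V h v) = V h (a v) := fun h hh v =>
    congrArg (fun T : ℋ →L[ℂ] ℋ => T v) (ha.1 h hh)
  have haR : ∀ h ∈ L₁.comap q, ∀ v, a (R₁ h v) = R₁ h (a v) := fun h hh v =>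
    congrArg (fun T : ℋ →L[ℂ] ℋ => T v) (ha.2.1 h hh)
  have haR₂ : ∀ h v, a (R₂ h v) = R₂ h (a v) := fun h v =>
    congrArg (fun T : ℋ →L[ℂ] ℋ => T v) (ha.2.2 _ ⟨h, rfl⟩)
  have hbV : ∀ h ∈ K₂.comap p₂, ∀ v, b (V h v) = V h (b v) := fun h hh v =>
    congrArg (fun T : ℋ →L[ℂ] ℋ => T v) (hb.1 h hh)
  have hbR : ∀ h, q h ∈ L₂ → ∀ v, b (R₁ h v) = R₁ h (b v) := fun h hh v =>
    congrArg (fun T : ℋ →L[ℂ] ℋ => T v) (hb.2.1 h hh)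
  have hbR₂ : ∀ h v, b (R₂ h v) = R₂ h (b v) := fun h v =>
    congrArg (fun T : ℋ →L[ℂ] ℋ => T v) (hb.2.2 _ ⟨h, rfl⟩)
  have hVR₁ : ∀ g h v, V g (R₁ h v) = R₁ h (V g v) := fun g h v =>
    congrArg (fun T : ℋ →L[ℂ] ℋ => T v) (hT.comm₁ g h)
  have hVR₂ : ∀ g h v, V g (R₂ h v) = R₂ h (V g v) := fun g h v =>
    congrArg (fun T : ℋ →L[ℂ] ℋ => T v) (hT.comm₂ g h)
  have hΘle : (L₁ ⊓ L₂).comap q ≤ L₁.comap q := Subgroup.comap_mono inf_le_left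
  have hηs := eta_summable hT.adj₁ hapos hΘle (relIndex_comap_inf q L₁ L₂ hL₁ hL₂) haR ξ
    (fun k => (hac (ξ k)).summable)
  have hsum := coset_summable (Θ₂ := K₂.comap p₂) (d := d) hT.adjV hbpos
    (fun p : ι × (Γ ⧸ (L₁ ⊓ L₂).comap q) => a (R₁ (p.2.out)⁻¹ (ξ p.1))) hηs hbd
  have hfs := fun g : Γ => fs_summable hT.adjV b
    (fun p : ι × (Γ ⧸ (L₁ ⊓ L₂).comap q) => a (R₁ (p.2.out)⁻¹ (ξ p.1))) hηs g⁻¹
  have hzero := zero_of_inv (K₁.comap p₁) (K₂.comap p₂) (infinite_comap p₁ hG₁ hIrr.dense₁ K₁ hK₁)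
    (conj_finite hIrr hK₁ hK₂)
    (fun g => ∑' p : ι × (Γ ⧸ (L₁ ⊓ L₂).comap q), ‖b (V g⁻¹ (a (R₁ (p.2.out)⁻¹ (ξ p.1))))‖ ^ 2)
    (fun h hh g => by
      refine hs_inv hTr hT ((L₁ ⊓ L₂).comap q) (b * V g⁻¹ * a) ?_ ?_ h⁻¹ (hfs g).hasSum ?_
      · intro u hu
        ext1 v
        change b (V g⁻¹ (a (R₁ u v))) = R₁ u (b (V g⁻¹ (a v)))
        rw [haR u (hΘle hu), hVR₁, hbR u (Subgroup.mem_comap.mp hu).2]
      · intro u
        ext1 v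
        change b (V g⁻¹ (a (R₂ u v))) = R₂ u (b (V g⁻¹ (a v)))
        rw [haR₂, hVR₂, hbR₂]
      · have h1 := (hfs (h * g)).hasSum
        have e : ∀ p : ι × (Γ ⧸ (L₁ ⊓ L₂).comap q),
            b (V (h * g)⁻¹ (a (R₁ (p.2.out)⁻¹ (ξ p.1)))) =
            (b * V g⁻¹ * a) (V h⁻¹ (R₁ (p.2.out)⁻¹ (ξ p.1))) := by
          intro p
          change _ = b (V g⁻¹ (a (V h⁻¹ (R₁ (p.2.out)⁻¹ (ξ p.1)))))
          rw [haV _ ((K₁.comap p₁).inv_mem hh), mul_inv_rev, map_mul]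
          rfl
        simp only [e] at h1 ⊢
        exact h1)
    (fun h hh g => by
      apply tsum_congr
      intro p
      have e : V (g * h)⁻¹ (a (R₁ (p.2.out)⁻¹ (ξ p.1))) =
          V h⁻¹ (V g⁻¹ (a (R₁ (p.2.out)⁻¹ (ξ p.1)))) := by
        rw [mul_inv_rev, map_mul]; rfl
      rw [e, hbV _ ((K₂.comap p₂).inv_mem hh), rep_norm hT.adjV]) hsum
  have hterm : ∀ g (p : ι × (Γ ⧸ (L₁ ⊓ L₂).comap q)),
      b (V g⁻¹ (a (R₁ (p.2.out)⁻¹ (ξ p.1)))) = 0 := by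
    intro g p
    have h1 : ‖b (V g⁻¹ (a (R₁ (p.2.out)⁻¹ (ξ p.1))))‖ ^ 2 ≤ _ :=
      (hfs g).le_tsum p (fun _ _ => by positivity)
    rw [hzero g] at h1
    have h2 : ‖b (V g⁻¹ (a (R₁ (p.2.out)⁻¹ (ξ p.1))))‖ = 0 := by
      have h3 := le_antisymm h1 (by positivity)
      exact pow_eq_zero_iff (two_ne_zero) |>.mp h3
    exact norm_eq_zero.mp h2
  refine end_zero (V := V) hbpos hbd (fun g ζ => ?_)
  have h0 : b * V g⁻¹ * a = 0 := by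
    apply zero_of_frame hT
    intro k h h'
    obtain ⟨u, hu⟩ := QuotientGroup.mk_out_eq_mul ((L₁ ⊓ L₂).comap q) (h⁻¹)
    have e1 : h = (u : Γ) * ((QuotientGroup.mk h⁻¹ : Γ ⧸ (L₁ ⊓ L₂).comap q).out)⁻¹ := by
      rw [hu]; group
    have e2 : R₁ h (R₂ h' (ξ k)) =
        R₂ h' (R₁ u (R₁ ((QuotientGroup.mk h⁻¹ : Γ ⧸ (L₁ ⊓ L₂).comap q).out)⁻¹ (ξ k))) := by
      have e3 : R₁ h (R₂ h' (ξ k)) = R₂ h' (R₁ h (ξ k)) :=
        congrArg (fun T : ℋ →L[ℂ] ℋ => T (ξ k)) (hT.comm₁₂ h h')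
      rw [e3]
      congr 1
      conv_lhs => rw [e1]
      rw [map_mul]; rfl
    rw [e2]
    change b (V g⁻¹ (a (R₂ h' (R₁ u (R₁ ((QuotientGroup.mk h⁻¹ :
      Γ ⧸ (L₁ ⊓ L₂).comap q).out)⁻¹ (ξ k)))))) = 0
    rw [haR₂, haR _ (hΘle u.2), hVR₂, hVR₁, hbR₂, hbR _ (Subgroup.mem_comap.mp u.2).2,
      hterm g (k, QuotientGroup.mk h⁻¹), map_zero, map_zero]
  exact congrArg (fun T : ℋ →L[ℂ] ℋ => T ζ) h0

/-- **[MATCH]** -/
theorem matchStmt : MatchStmt := matchStmt_of H911.trStmt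

end Vale.Agent.P092.H144
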