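import Vale.Agent.P092.RC.Blocks

/-!
P092, TEAM C, block [C-GEO] (helper144), part A: the section `sct` and the blocks `blk`.
-/

set_option linter.all false

open scoped LinearAlgebra.Projectivization Matrix
open Matrix TopologicalSpace Filter Topology

namespace Vale.Agent.P092.H144.Geo

open Vale.Agent.P092.RC
open Vale.Agent.P092.H820 (pj pj_surj pj_continuous pj_oq pj_eq)

section alg

variable {k : Type} [NontriviallyNormedField k] {m : ℕ}

/-- indices of coordinates of maximal norm -/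
noncomputable def mx (v : Fin (m + 1) → k) : Finset (Fin (m + 1)) := by
  classical
  exact Finset.univ.filter fun i => ∀ j, ‖v j‖ ≤ ‖v i‖

theorem mem_mx {v : Fin (m + 1) → k} {i : Fin (m + 1)} : i ∈ mx v ↔ ∀ j, ‖v j‖ ≤ ‖v i‖ := by
  classical
  simp [mx]

theorem mx_ne (v : Fin (m + 1) → k) : (mx v).Nonempty := by
  obtain ⟨i, hi⟩ := Finite.exists_max fun i => ‖v i‖
  exact ⟨i, mem_mx.2 hi⟩

theorem ix_eq (v : Fin (m + 1) → k) : ix v = (mx v).min' (mx_ne v) := by
  classical
  have h : (Finset.univ.filter fun i => ∀ j, ‖v j‖ ≤ ‖v i‖) = mx v := by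
    ext i
    rw [mem_mx]
    simp
  have h2 := mx_ne v
  unfold ix
  rw [dif_pos (by rw [h]; exact h2)]
  congr 1

theorem ix_mem (v : Fin (m + 1) → k) (j : Fin (m + 1)) : ‖v j‖ ≤ ‖v (ix v)‖ := by
  have h := Finset.min'_mem (mx v) (mx_ne v)
  rw [← ix_eq] at h
  exact mem_mx.1 h j

theorem ix_congr {v w : Fin (m + 1) → k} (h : mx v = mx w) : ix v = ix w := by
  rw [ix_eq, ix_eq]
  congr 1

theorem ix_ne {v : Fin (m + 1) → k} (hv : v ≠ 0) : v (ix v) ≠ 0 := by
  intro h
  apply hv
  funext j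
  have := ix_mem v j
  rw [h, norm_zero] at this
  exact norm_eq_zero.1 (le_antisymm this (norm_nonneg _))

theorem ix_smul (c : kˣ) (v : Fin (m + 1) → k) : ix (c • v) = ix v := by
  apply ix_congr
  ext i
  rw [mem_mx, mem_mx]
  have hc : (0 : ℝ) < ‖(c : k)‖ := norm_pos_iff.2 c.ne_zero
  constructor
  · intro h j
    have := h j
    simp only [Pi.smul_apply, Units.smul_def, smul_eq_mul, norm_mul] at this
    exact le_of_mul_le_mul_left this hc
  · intro h j
    simp only [Pi.smul_apply, Units.smul_def, smul_eq_mul, norm_mul]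
    exact mul_le_mul_of_nonneg_left (h j) hc.le

theorem ix_mk (v : Fin (m + 1) → k) (hv : v ≠ 0) : ix (Projectivization.mk k v hv).rep = ix v := by
  obtain ⟨c, hc⟩ := Projectivization.exists_smul_eq_mk_rep k v hv
  rw [← hc, ix_smul]

theorem nv_mk (v : Fin (m + 1) → k) (hv : v ≠ 0) (j : Fin (m + 1)) :
    nv (Projectivization.mk k v hv) j = v j / v (ix v) := by
  obtain ⟨c, hc⟩ := Projectivization.exists_smul_eq_mk_rep k v hv
  unfold nv
  rw [ix_mk, ← hc]
  simp only [Pi.smul_apply, Units.smul_def, smul_eq_mul]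
  rw [mul_div_mul_left _ _ c.ne_zero]

theorem nv_ix (y : YY k m) : nv y (ix y.rep) = 1 := by
  unfold nv
  exact div_self (ix_ne y.rep_nonzero)

theorem nv_ne (y : YY k m) : nv y ≠ 0 := by
  intro h
  have := nv_ix y
  rw [h] at this
  simp at this

theorem mk_nv (y : YY k m) : Projectivization.mk k (nv y) (nv_ne y) = y := by
  conv_rhs => rw [← y.mk_rep]
  rw [Projectivization.mk_eq_mk_iff]
  refine ⟨Units.mk0 (y.rep (ix y.rep))⁻¹ (inv_ne_zero (ix_ne y.rep_nonzero)), ?_⟩
  funext j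
  simp only [Pi.smul_apply, Units.smul_def, Units.val_mk0, smul_eq_mul]
  unfold nv
  rw [div_eq_inv_mul]

theorem sct_zero (y : YY k m) (a : Fin (m + 1)) : sct y a 0 = nv y a := rfl

theorem sct_succ (y : YY k m) (a : Fin (m + 1)) (j : Fin m) :
    sct y a j.succ = if a = (ix y.rep).succAbove j then 1 else 0 := rfl

theorem sct_mulVec (y : YY k m) (x : Fin (m + 1) → k) (a : Fin (m + 1)) :
    (sct y *ᵥ x) a = nv y a * x 0 +
      ∑ j : Fin m, (if a = (ix y.rep).succAbove j then 1 else 0) * x j.succ := by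
  rw [Matrix.mulVec, dotProduct, Fin.sum_univ_succ]
  rfl

theorem sct_unit (y : YY k m) : IsUnit (sct y) := by
  rw [← Matrix.mulVec_injective_iff_isUnit]
  rw [← Matrix.coe_mulVecLin, injective_iff_map_eq_zero]
  intro x hx
  rw [Matrix.coe_mulVecLin] at hx
  have h0 : x 0 = 0 := by
    have h1 := congrFun hx (ix y.rep)
    rw [sct_mulVec, nv_ix] at h1
    have h2 : ∀ j : Fin m, (if ix y.rep = (ix y.rep).succAbove j then (1 : k) else 0) * x j.succ = 0 := by
      intro j
      rw [if_neg (Fin.succAbove_ne _ _).symm, zero_mul]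
    rw [Finset.sum_eq_zero fun j _ => h2 j] at h1
    simpa using h1
  funext b
  refine Fin.cases h0 (fun j => ?_) b
  have h1 := congrFun hx ((ix y.rep).succAbove j)
  rw [sct_mulVec, h0, mul_zero, zero_add, Finset.sum_eq_single j] at h1
  · simpa using h1
  · intro i _ hij
    rw [if_neg, zero_mul]
    intro h
    exact hij ((Fin.succAbove_right_injective h).symm)
  · simp

theorem sct_det (y : YY k m) : (sct y).det ≠ 0 := by
  have := (Matrix.isUnit_iff_isUnit_det _).1 (sct_unit y)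
  exact this.ne_zero

theorem sct_inv_mul (y : YY k m) : (sct y)⁻¹ * sct y = 1 :=
  Matrix.nonsing_inv_mul _ ((Matrix.isUnit_iff_isUnit_det _).1 (sct_unit y))

theorem sct_mul_inv (y : YY k m) : sct y * (sct y)⁻¹ = 1 :=
  Matrix.mul_nonsing_inv _ ((Matrix.isUnit_iff_isUnit_det _).1 (sct_unit y))

/-- `s(g y)⁻¹ g s(y)` -/
noncomputable def MM (g : GG k m) (y : YY k m) : Matrix (Fin (m + 1)) (Fin (m + 1)) k :=
  (sct (g • y))⁻¹ * g.1 * sct y

theorem MM_mul (g h : GG k m) (y : YY k m) : MM (g * h) y = MM g (h • y) * MM h y := by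
  unfold MM
  rw [mul_smul]
  have e : (g * h : GG k m).1 = g.1 * h.1 := rfl
  rw [e]
  calc (sct (g • h • y))⁻¹ * (g.1 * h.1) * sct y
      = (sct (g • h • y))⁻¹ * g.1 * 1 * h.1 * sct y := by
        rw [mul_one, ← mul_assoc]
    _ = (sct (g • h • y))⁻¹ * g.1 * (sct (h • y) * (sct (h • y))⁻¹) * h.1 * sct y := by
        rw [sct_mul_inv]
    _ = _ := by simp only [mul_assoc]

theorem MM_one (y : YY k m) : MM (1 : GG k m) y = 1 := by
  unfold MM
  rw [one_smul]
  have e : (1 : GG k m).1 = 1 := rfl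
  rw [e, mul_one, sct_inv_mul]

theorem smul_nv (g : GG k m) (y : YY k m) : ∃ c : k, g.1 *ᵥ nv y = c • nv (g • y) := by
  have h1 : g • y = Projectivization.mk k (g.1 *ᵥ nv y) (by
      have : g • nv y ≠ 0 := (smul_ne_zero_iff_ne g).2 (nv_ne y)
      exact this) := by
    conv_lhs => rw [← mk_nv y]
    rfl
  have h2 : nv (g • y) = fun j => (g.1 *ᵥ nv y) j / (g.1 *ᵥ nv y) (ix (g.1 *ᵥ nv y)) := by
    funext j
    rw [h1, nv_mk]
  refine ⟨(g.1 *ᵥ nv y) (ix (g.1 *ᵥ nv y)), ?_⟩
  rw [h2]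
  funext j
  simp only [Pi.smul_apply, smul_eq_mul]
  rw [mul_div_cancel₀]
  apply ix_ne
  have : g • nv y ≠ 0 := (smul_ne_zero_iff_ne g).2 (nv_ne y)
  exact this

theorem sct_mulVec_single (y : YY k m) : sct y *ᵥ (Pi.single 0 1) = nv y := by
  funext a
  rw [Matrix.mulVec_single_one]
  rfl

theorem MM_low (g : GG k m) (y : YY k m) (a : Fin m) : MM g y a.succ 0 = 0 := by
  obtain ⟨c, hc⟩ := smul_nv g y
  have h1 : MM g y *ᵥ (Pi.single 0 1) = c • (Pi.single 0 1 : Fin (m + 1) → k) := by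
    unfold MM
    rw [← Matrix.mulVec_mulVec, sct_mulVec_single, ← Matrix.mulVec_mulVec, hc,
      ← sct_mulVec_single (g • y), Matrix.mulVec_smul, Matrix.mulVec_mulVec, sct_inv_mul,
      Matrix.one_mulVec]
  have h2 := congrFun h1 a.succ
  rw [Matrix.mulVec_single_one] at h2
  simpa using h2

theorem sub_mul (A B : Matrix (Fin (m + 1)) (Fin (m + 1)) k) (hA : ∀ a : Fin m, A a.succ 0 = 0) :
    (A * B).submatrix Fin.succ Fin.succ =
      A.submatrix Fin.succ Fin.succ * B.submatrix Fin.succ Fin.succ := by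
  ext a b
  rw [Matrix.submatrix_apply, Matrix.mul_apply, Fin.sum_univ_succ, hA, zero_mul, zero_add,
    Matrix.mul_apply]
  rfl

theorem blk_eq (g : GG k m) (y : YY k m) : blk g y = (MM g y).submatrix Fin.succ Fin.succ := rfl

theorem blk_mul (g h : GG k m) (y : YY k m) : blk (g * h) y = blk g (h • y) * blk h y := by
  rw [blk_eq, blk_eq, blk_eq, MM_mul, sub_mul _ _ (MM_low g (h • y))]

theorem blk_one (y : YY k m) : blk (1 : GG k m) y = 1 := by
  rw [blk_eq, MM_one]
  ext a b
  simp [Matrix.one_apply, Fin.succ_inj]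

/-- the block as an element of `GL` -/
noncomputable def bu (g : GG k m) (y : YY k m) : GL (Fin m) k where
  val := blk g y
  inv := blk g⁻¹ (g • y)
  val_inv := by
    have := blk_mul g g⁻¹ (g • y)
    rw [mul_inv_cancel, blk_one, inv_smul_smul] at this
    exact this.symm
  inv_val := by
    have := blk_mul g⁻¹ g y
    rw [inv_mul_cancel, blk_one] at this
    exact this.symm

theorem cc_eq (g : GG k m) (y : YY k m) : (cc g y : PG k m) = QuotientGroup.mk (bu g y) := by
  have h : IsUnit (blk g y) := ⟨bu g y, rfl⟩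
  unfold cc
  rw [dif_pos h]
  congr 1
  apply Units.ext
  rfl

theorem bu_mul (g h : GG k m) (y : YY k m) : bu (g * h) y = bu g (h • y) * bu h y := by
  apply Units.ext
  exact blk_mul g h y

theorem cc_mul (g h : GG k m) (y : YY k m) : (cc (g * h) y : PG k m) = cc g (h • y) * cc h y := by
  rw [cc_eq, cc_eq, cc_eq, bu_mul]
  rfl

end alg

end Vale.Agent.P092.H144.Geo
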