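import Vale.Agent.P092.H144.MassP
import Vale.Agent.P092.H776.NW3

/-!
P092 (helper144), Team C, [A-MASS]: `nrm`, `nrv` for the wall element `bw w` of `SL_3(k')` and a
target in `SL_3` of a non-archimedean local field.
-/

set_option linter.all false

open scoped InnerProductSpace ENNReal
open Matrix Filter Topology MeasureTheory ContinuousLinearMap

namespace Vale.Agent.P092.H144.Mass

open Vale.Agent.P092.H761 (CovFam)
open Vale.Agent.P092.H538 (ind)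
open Vale.Agent.P092.H859.CL (BB)
open Vale.Agent.P092.H160 Vale.Agent.P092.H432 Vale.Agent.P092.H132
open Vale.Agent.P092.H790 (Ri baseL)
open Vale.Agent.P092.H357 (BdL2)
open Vale.Agent.P092.H575 (g1 g2)
open Vale.Agent.P092.SD (G3 bw)

section inst

variable {k' : Type} [NontriviallyNormedField k'] [ProperSpace k']
  [MeasurableSpace (G3 k')] [BorelSpace (G3 k')]
  (Λ : Subgroup (G3 k')) [DiscreteTopology Λ] [MeasurableSpace (G3 k' ⧸ Λ)]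
  [BorelSpace (G3 k' ⧸ Λ)]
  (ν : Measure (G3 k' ⧸ Λ)) [IsProbabilityMeasure ν]
  (hν : ∀ g : G3 k', ν.map (fun x => g • x) = ν)
  {k : Type} [NontriviallyNormedField k] [ProperSpace k] [IsUltrametricDist k]
  {Γ Q ι : Type} [Group Γ] [Countable Γ] [Group Q] [Countable Q] [Fintype ι] {t : ℝ}
  {R : Λ → (Ell2 ((Γ × Q) × ι) →L[ℂ] Ell2 ((Γ × Q) × ι))}
  {E0 : Set Λ → (Ell2 ((Γ × Q) × ι) →L[ℂ] Ell2 ((Γ × Q) × ι))}

/-- **`nrm`** for `A = ⟨bw w⟩`, ultrametric target. -/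
theorem nrm_bw [LocallyCompactSpace (G3 k')] [SecondCountableTopology (G3 k')]
    (hR : ARep t R) (hE : CovFam R E0)
    (hq : ∀ A (q : Q), E0 A * lx ((1 : Γ), q) = lx ((1 : Γ), q) * E0 A)
    {w : k'ˣ} (hw : ‖(w : k')‖ ≠ 1) (q : Γ →* SpecialLinearGroup (Fin 3) k)
    (hφ : ∀ K : Set (SpecialLinearGroup (Fin 3) k), IsCompact K → {x | q x ∈ K}.Finite)
    {ε : ℝ} (hε : 0 < ε) : ∃ r : ℝ, ∀ u ∈ Subgroup.zpowers (bw w : G3 k'),
      massX (H538.fst (baseL (H85.cdat ν hν).μ (Γ × Q) ι)) (Ri (H85.cdat ν hν) R)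
        u (ind fun γ => γ ∈ BB (fun γ => g1 (q γ).1) (fun γ => g2 (q γ).1) r) ≤ ε := by
  have hw' : ‖((w⁻¹ : k'ˣ) : k')‖ ≠ 1 := by
    rw [Units.val_inv_eq_inv_val, norm_inv]
    exact fun h => hw (inv_eq_one.1 h)
  rw [H776.NW.bw_eq_tor]
  exact nrm_tor Λ ν hν le_rfl hR hE hq (Units.ne_zero _) hw' q hφ hε

/-- **`nrv`** for `A = ⟨bw w⟩`, ultrametric target. -/
theorem nrv_bw [LocallyCompactSpace (G3 k')] [SecondCountableTopology (G3 k')]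
    (hR : ARep t R) (hE : CovFam R E0)
    (hq : ∀ A (q : Q), E0 A * lx ((1 : Γ), q) = lx ((1 : Γ), q) * E0 A)
    {w : k'ˣ} (hw : ‖(w : k')‖ ≠ 1) (q : Γ →* SpecialLinearGroup (Fin 3) k)
    (hφ : ∀ K : Set (SpecialLinearGroup (Fin 3) k), IsCompact K → {x | q x ∈ K}.Finite)
    {ξ : Lp (Ell2 ((Γ × Q) × ι)) 2 (H85.cdat ν hν).μ}
    (hξ : ξ ∈ BdL2 (H85.cdat ν hν).μ Γ Q ι) {ε : ℝ} (hε : 0 < ε) :
    ∃ r : ℝ, ∀ u ∈ Subgroup.zpowers (bw w : G3 k'),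
      ‖(H538.fst (baseL (H85.cdat ν hν).μ (Γ × Q) ι)).mp
        (ind fun γ => γ ∈ BB (fun γ => g1 (q γ).1) (fun γ => g2 (q γ).1) r)
        (Ri (H85.cdat ν hν) R u ξ)‖ ≤ ε := by
  have hw' : ‖((w⁻¹ : k'ˣ) : k')‖ ≠ 1 := by
    rw [Units.val_inv_eq_inv_val, norm_inv]
    exact fun h => hw (inv_eq_one.1 h)
  rw [H776.NW.bw_eq_tor]
  exact nrv_tor Λ ν hν le_rfl hR hE hq (Units.ne_zero _) hw' q hφ hξ hε

end inst

end Vale.Agent.P092.H144.Mass
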