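import Vale.Agent.P092.H776.NW2
import Vale.Agent.P092.H933.PInst
import Vale.Agent.P092.H515.Places
import Vale.Agent.P092.H575.Geo4

/-!
P092 (helper144), Team C, [A-MASS]: the fields `nrm`, `nrv` of `H859.CL.Sys` for the group generated
by the wall element of `SL_3(k')` and a target in `SL_3` of a non-archimedean local field.
-/

set_option linter.all false

open scoped InnerProductSpace ENNReal
open Matrix Filter Topology MeasureTheory ContinuousLinearMap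

namespace Vale.Agent.P092.H144.Mass

open Vale.Agent.P092.H761 (SharpData GChain big mem_big Geo Gaps CovFam)
open Vale.Agent.P092.H933 (PEmb place nr sz nu entry_le_nr cn)
open Vale.Agent.P092.H515 (GSys place_gsys start2)
open Vale.Agent.P092.H538 (ind ind_pos ind_neg ind_nonneg abs_ind_le)
open Vale.Agent.P092.H859.CL (BB)
open Vale.Agent.P092.H160 Vale.Agent.P092.H432 Vale.Agent.P092.H132
open Vale.Agent.P092.H790 (CData Ri baseL)
open Vale.Agent.P092.H357 (BdL2)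
open Vale.Agent.P092.H701 (HChain tor)
open Vale.Agent.P092.H575 (g1 g2)

/-! ### The gauges -/

section gau

variable {k : Type} [NontriviallyNormedField k] [ProperSpace k] [IsUltrametricDist k] {n : ℕ}
  {Γ : Type} [Group Γ]

theorem isCompact_sl (R : ℝ) : IsCompact {M : SpecialLinearGroup (Fin n) k | ∀ i j, ‖M.1 i j‖ ≤ R} := by
  have h3 : Topology.IsClosedEmbedding (fun g : SpecialLinearGroup (Fin n) k =>
      (g : Matrix (Fin n) (Fin n) k)) :=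
    Matrix.SpecialLinearGroup.isClosedEmbedding_val
  have hc : IsCompact (Set.univ.pi fun _ : Fin n => Set.univ.pi fun _ : Fin n =>
      Metric.closedBall (0 : k) R) :=
    isCompact_univ_pi fun _ => isCompact_univ_pi fun _ => isCompact_closedBall _ _
  refine (h3.isCompact_preimage hc).of_isClosed_subset ?_ fun g hg i _ j _ => ?_
  · have : {M : SpecialLinearGroup (Fin n) k | ∀ i j, ‖M.1 i j‖ ≤ R} =
        ⋂ i, ⋂ j, {M : SpecialLinearGroup (Fin n) k | ‖M.1 i j‖ ≤ R} := by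
      ext M; simp
    rw [this]
    refine isClosed_iInter fun i => isClosed_iInter fun j => isClosed_le ?_ continuous_const
    have h4 : Continuous fun M : SpecialLinearGroup (Fin n) k => M.1 i j := by
      have h5 : Continuous fun M : SpecialLinearGroup (Fin n) k => M.1 := continuous_subtype_val
      exact (continuous_apply j).comp ((continuous_apply i).comp h5)
    exact h4.norm
  · rw [mem_closedBall_zero_iff]
    exact hg i j

theorem gsys_ultra (hn : 0 < n) (φ : Γ →* SpecialLinearGroup (Fin n) k) :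
    GSys (fun (j : Fin (n - 1)) g => H933.gap (H515.finEmb n j) (φ g).1)
      (fun g => sz (φ g).1) := by
  have hE : PEmb fun g : Γ => (φ g).1 := by
    refine ⟨fun a b => ⟨1, one_ne_zero, ?_⟩, fun g => ?_⟩
    · rw [map_mul, one_smul]
      exact Matrix.SpecialLinearGroup.coe_mul (φ a) (φ b)
    · rw [(φ g).2]; exact one_ne_zero
  have hP := place hn hE (H515.finEmb n) (R0 := 0) fun l hl hj =>
    absurd rfl (hj ⟨l, by omega⟩)
  exact place_gsys hP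

theorem sz_finite (φ : Γ →* SpecialLinearGroup (Fin n) k)
    (hφ : ∀ K : Set (SpecialLinearGroup (Fin n) k), IsCompact K → {x | φ x ∈ K}.Finite) (R : ℝ) :
    {g : Γ | sz (φ g).1 ≤ R}.Finite := by
  refine (hφ _ (isCompact_sl R)).subset fun g hg i j => ?_
  refine (entry_le_nr _ i j).trans ?_
  have e : sz (φ g).1 = nr (φ g).1 := by
    unfold sz nu
    rw [(φ g).2, norm_one, Real.one_rpow, div_one]
  rw [← e]
  exact hg

end gau

/-! ### The abstract form -/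

section abs

variable {k : Type} [NontriviallyNormedField k] [ProperSpace k] [IsUltrametricDist k]
  {Γ 𝔾 : Type} [Group Γ] [DecidableEq Γ] [Group 𝔾] {t : ℝ}
  {mass : 𝔾 → (Γ → ℝ) → ℝ} {Cpt : Set 𝔾 → Prop} {Ping : (p : ℕ) → (Fin p → 𝔾) → Prop}
  {m : ℕ} {b : Fin m → ℕ → 𝔾} {𝒦 : Fin m → Set 𝔾} {n : ℕ}

/-- **Near-wall, `SL_{n+1}` of a non-archimedean local field**: along the first direction of a
chain of length `≥ n`, the mass of the elements with two gaps `≥ R` is small. -/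
theorem nw_ultra (h : SharpData t mass Cpt Ping) (hch : GChain Cpt Ping m b 𝒦) (hm : 0 < m)
    (hnm : n ≤ m) (φ : Γ →* SpecialLinearGroup (Fin (n + 1)) k)
    (hφ : ∀ K : Set (SpecialLinearGroup (Fin (n + 1)) k), IsCompact K → {x | φ x ∈ K}.Finite)
    {ε : ℝ} (hε : 0 < ε) : ∃ R : ℝ, ∀ N, mass (b ⟨0, hm⟩ N) (ind fun g => ∃ i j : ℕ, i < n ∧ j < n ∧
      i ≠ j ∧ R ≤ H933.gap i (φ g).1 ∧ R ≤ H933.gap j (φ g).1) ≤ ε := by
  classical
  have hsys := gsys_ultra (Nat.succ_pos n) φ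
  have hg := hsys.gaps (sz_finite φ hφ) (fun j : Fin (n + 1 - 1) => j)
    (fun R => ⟨R, fun i j hij g hg => by rw [← hij]; exact hg⟩)
  obtain ⟨R, hR⟩ := start2 h hg (fun θ _ _ => hsys.geo' (sz_finite φ hφ) θ) hch
    (by omega) hm hε
  refine ⟨R, fun N => (h.ind_mono _ ?_).trans (hR N)⟩
  rintro g ⟨i, j, hi, hj, hij, h1, h2⟩
  have hne : (⟨i, by omega⟩ : Fin (n + 1 - 1)) ≠ ⟨j, by omega⟩ := fun h => hij (Fin.mk.inj h)
  refine Finset.one_lt_card.2 ⟨⟨i, by omega⟩, mem_big.2 ⟨_, rfl, h1⟩, ⟨j, by omega⟩,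
    mem_big.2 ⟨_, rfl, h2⟩, hne⟩

end abs

/-! ### The regular sets -/

section bb

variable {k : Type} [NontriviallyNormedField k] [ProperSpace k] [IsUltrametricDist k]
  {Γ : Type} [Group Γ]

/-- The gaps are quasi-invariant. -/
theorem gap_quasi (q : Γ →* SpecialLinearGroup (Fin 3) k) (s t : Γ) :
    ∃ C : ℝ, ∀ g, |g1 (q (s * g * t)).1 - g1 (q g).1| ≤ C ∧
      |g2 (q (s * g * t)).1 - g2 (q g).1| ≤ C := by
  obtain ⟨C, hC⟩ := (gsys_ultra (by norm_num : 0 < 3) q).quasi s t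
  refine ⟨C, fun g => ⟨?_, ?_⟩⟩
  · rw [H575.g1_eq_gap (by norm_num), H575.g1_eq_gap (by norm_num)]
    exact hC ⟨0, by norm_num⟩ g
  · rw [H575.g2_eq_gap, H575.g2_eq_gap]
    exact hC ⟨1, by norm_num⟩ g

/-- Translation of the regular sets. -/
theorem BB_trans (q : Γ →* SpecialLinearGroup (Fin 3) k) (γ : Γ) (r : ℝ) :
    ∃ r', ∀ g ∈ BB (fun γ => g1 (q γ).1) (fun γ => g2 (q γ).1) r',
      γ⁻¹ * g ∈ BB (fun γ => g1 (q γ).1) (fun γ => g2 (q γ).1) r := by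
  obtain ⟨C, hC⟩ := gap_quasi q γ⁻¹ 1
  refine ⟨r + C, fun g hg => ?_⟩
  have h := hC g
  rw [mul_one] at h
  have h1 := (abs_le.1 h.1).1
  have h2 := (abs_le.1 h.2).1
  have h3 : r + C < g1 (q g).1 := hg.1
  have h4 : r + C < g2 (q g).1 := hg.2
  refine ⟨?_, ?_⟩
  · show r < g1 (q (γ⁻¹ * g)).1
    linarith
  · show r < g2 (q (γ⁻¹ * g)).1
    linarith

end bb

/-! ### `nrm` and `nrv` -/

section nrm

variable {E : Type} [Group E] [TopologicalSpace E] [IsTopologicalGroup E] [LocallyCompactSpace E]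
  [SecondCountableTopology E] [T2Space E] [MeasurableSpace E] [BorelSpace E]
  (Λ : Subgroup E) [DiscreteTopology Λ] [MeasurableSpace (E ⧸ Λ)] [BorelSpace (E ⧸ Λ)]
  (ν : Measure (E ⧸ Λ)) [IsProbabilityMeasure ν] (hν : ∀ g : E, ν.map (fun x => g • x) = ν)
  {k : Type} [NontriviallyNormedField k] [ProperSpace k] [IsUltrametricDist k]
  {Γ Q ι : Type} [Group Γ] [Countable Γ] [Group Q] [Countable Q] [Fintype ι] {t : ℝ}
  {R : Λ → (Ell2 ((Γ × Q) × ι) →L[ℂ] Ell2 ((Γ × Q) × ι))}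
  {E0 : Set Λ → (Ell2 ((Γ × Q) × ι) →L[ℂ] Ell2 ((Γ × Q) × ι))}

/-- `nrm` along one direction. -/
theorem nrm_chain (hR : ARep t R) (hE : CovFam R E0)
    (hq : ∀ A (q : Q), E0 A * lx ((1 : Γ), q) = lx ((1 : Γ), q) * E0 A)
    {m : ℕ} (C : HChain E m) (hm : 0 < m) (h2 : 2 ≤ m) (q : Γ →* SpecialLinearGroup (Fin 3) k)
    (hφ : ∀ K : Set (SpecialLinearGroup (Fin 3) k), IsCompact K → {x | q x ∈ K}.Finite)
    {ε : ℝ} (hε : 0 < ε) : ∃ r : ℝ, ∀ N,
      massX (H538.fst (baseL (H85.cdat ν hν).μ (Γ × Q) ι)) (Ri (H85.cdat ν hν) R)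
        (C.b ⟨0, hm⟩ N)
        (ind fun γ => γ ∈ BB (fun γ => g1 (q γ).1) (fun γ => g2 (q γ).1) r) ≤ ε := by
  classical
  have hd := H761.sharpCoef Λ ν hν hR hE hq
  obtain ⟨r, hr⟩ := nw_ultra hd (H261.gchain_of_hchain C) hm h2 q hφ hε
  refine ⟨r, fun N => ?_⟩
  refine le_trans ?_ (hr N)
  refine hd.ind_mono (C.b ⟨0, hm⟩ N)
    (P := fun γ => γ ∈ BB (fun γ => g1 (q γ).1) (fun γ => g2 (q γ).1) r) ?_
  intro γ hγ
  refine ⟨0, 1, by norm_num, by norm_num, by norm_num, ?_, ?_⟩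
  · have h3 : r < g1 (q γ).1 := hγ.1
    rw [H575.g1_eq_gap (by norm_num)] at h3
    exact h3.le
  · have h3 : r < g2 (q γ).1 := hγ.2
    rw [H575.g2_eq_gap] at h3
    exact h3.le

/-- **`nrm`** for the group generated by the wall element `b`. -/
theorem nrm_zpowers (hR : ARep t R) (hE : CovFam R E0)
    (hq : ∀ A (q : Q), E0 A * lx ((1 : Γ), q) = lx ((1 : Γ), q) * E0 A)
    {m : ℕ} (C C' : HChain E m) (hm : 0 < m) (h2 : 2 ≤ m) {b : E}
    (hC : ∀ N, C.b ⟨0, hm⟩ N = b ^ N) (hC' : ∀ N, C'.b ⟨0, hm⟩ N = b⁻¹ ^ N)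
    (q : Γ →* SpecialLinearGroup (Fin 3) k)
    (hφ : ∀ K : Set (SpecialLinearGroup (Fin 3) k), IsCompact K → {x | q x ∈ K}.Finite)
    {ε : ℝ} (hε : 0 < ε) : ∃ r : ℝ, ∀ u ∈ Subgroup.zpowers b,
      massX (H538.fst (baseL (H85.cdat ν hν).μ (Γ × Q) ι)) (Ri (H85.cdat ν hν) R)
        u (ind fun γ => γ ∈ BB (fun γ => g1 (q γ).1) (fun γ => g2 (q γ).1) r) ≤ ε := by
  classical
  have hd := H761.sharpCoef Λ ν hν hR hE hq
  obtain ⟨r, hr⟩ := nrm_chain Λ ν hν hR hE hq C hm h2 q hφ hε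
  obtain ⟨r', hr'⟩ := nrm_chain Λ ν hν hR hE hq C' hm h2 q hφ hε
  have mono : ∀ (r₁ r₂ : ℝ) (u : E), r₁ ≤ r₂ →
      massX (H538.fst (baseL (H85.cdat ν hν).μ (Γ × Q) ι)) (Ri (H85.cdat ν hν) R)
        u (ind fun γ => γ ∈ BB (fun γ => g1 (q γ).1) (fun γ => g2 (q γ).1) r₂) ≤
      massX (H538.fst (baseL (H85.cdat ν hν).μ (Γ × Q) ι)) (Ri (H85.cdat ν hν) R)
        u (ind fun γ => γ ∈ BB (fun γ => g1 (q γ).1) (fun γ => g2 (q γ).1) r₁) := fun r₁ r₂ u h =>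
    hd.ind_mono u (P := fun γ => γ ∈ BB (fun γ => g1 (q γ).1) (fun γ => g2 (q γ).1) r₂)
      (Q := fun γ => γ ∈ BB (fun γ => g1 (q γ).1) (fun γ => g2 (q γ).1) r₁)
      fun γ hγ => H859.CL.BB_mono h hγ
  refine ⟨max r r', ?_⟩
  rintro _ ⟨z, rfl⟩
  obtain ⟨N, rfl | rfl⟩ := z.eq_nat_or_neg
  · have h0 := hr N
    rw [hC] at h0
    have h1 := (mono _ _ (b ^ N) (le_max_left r r')).trans h0
    simpa using h1
  · have h0 := hr' N
    rw [hC'] at h0
    have h1 := (mono _ _ (b⁻¹ ^ N) (le_max_right r r')).trans h0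
    simpa using h1

end nrm

/-! ### The source `SL_(m+1)(k')`, `m ≥ 2` -/

section inst

variable {k' : Type} [NontriviallyNormedField k'] [ProperSpace k'] {m : ℕ}
  [LocallyCompactSpace (SpecialLinearGroup (Fin (m + 1)) k')]
  [SecondCountableTopology (SpecialLinearGroup (Fin (m + 1)) k')]
  [MeasurableSpace (SpecialLinearGroup (Fin (m + 1)) k')]
  [BorelSpace (SpecialLinearGroup (Fin (m + 1)) k')]
  (Λ : Subgroup (SpecialLinearGroup (Fin (m + 1)) k')) [DiscreteTopology Λ]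
  [MeasurableSpace (SpecialLinearGroup (Fin (m + 1)) k' ⧸ Λ)]
  [BorelSpace (SpecialLinearGroup (Fin (m + 1)) k' ⧸ Λ)]
  (ν : Measure (SpecialLinearGroup (Fin (m + 1)) k' ⧸ Λ)) [IsProbabilityMeasure ν]
  (hν : ∀ g : SpecialLinearGroup (Fin (m + 1)) k', ν.map (fun x => g • x) = ν)
  {k : Type} [NontriviallyNormedField k] [ProperSpace k] [IsUltrametricDist k]
  {Γ Q ι : Type} [Group Γ] [Countable Γ] [Group Q] [Countable Q] [Fintype ι] {t : ℝ}
  {R : Λ → (Ell2 ((Γ × Q) × ι) →L[ℂ] Ell2 ((Γ × Q) × ι))}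
  {E0 : Set Λ → (Ell2 ((Γ × Q) × ι) →L[ℂ] Ell2 ((Γ × Q) × ι))}

/-- **`nrm`** for `A = ⟨tor 0⟩`, `tor 0 = diag (w ^ m, w⁻¹, …, w⁻¹)`, `‖w‖ ≠ 1`. -/
theorem nrm_tor (hm : 2 ≤ m) (hR : ARep t R) (hE : CovFam R E0)
    (hq : ∀ A (q : Q), E0 A * lx ((1 : Γ), q) = lx ((1 : Γ), q) * E0 A)
    {w : k'} (hw : w ≠ 0) (hw1 : ‖w‖ ≠ 1) (q : Γ →* SpecialLinearGroup (Fin 3) k)
    (hφ : ∀ K : Set (SpecialLinearGroup (Fin 3) k), IsCompact K → {x | q x ∈ K}.Finite)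
    {ε : ℝ} (hε : 0 < ε) : ∃ r : ℝ, ∀ u ∈ Subgroup.zpowers (tor m hw 0),
      massX (H538.fst (baseL (H85.cdat ν hν).μ (Γ × Q) ι)) (Ri (H85.cdat ν hν) R)
        u (ind fun γ => γ ∈ BB (fun γ => g1 (q γ).1) (fun γ => g2 (q γ).1) r) ≤ ε := by
  rcases lt_or_gt_of_ne hw1 with h | h
  · have hw' : w⁻¹ ≠ 0 := inv_ne_zero hw
    have h' : 1 < ‖w⁻¹‖ := by
      rw [norm_inv]
      exact one_lt_inv_iff₀.2 ⟨norm_pos_iff.2 hw, h⟩
    have e : tor m hw' 0 = (tor m hw 0)⁻¹ := by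
      rw [eq_inv_iff_mul_eq_one]
      apply Subtype.ext
      change Matrix.diagonal _ * Matrix.diagonal _ = 1
      rw [Matrix.diagonal_mul_diagonal, ← Matrix.diagonal_one]
      congr 1
      funext i
      have h4 : w ^ (m - ((0 : Fin (m + 1)) : ℕ)) ≠ 0 := pow_ne_zero _ hw
      by_cases hi : i = 0
      · subst hi
        simp [H701.dg, hw]
      · have hi' : 0 < i := Fin.pos_of_ne_zero hi
        simp [H701.dg, hw, hi, hi']
    have e2 : Subgroup.zpowers (tor m hw 0) = Subgroup.zpowers (tor m hw' 0) := by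
      rw [e, Subgroup.zpowers_inv]
    rw [e2]
    exact nrm_zpowers Λ ν hν hR hE hq (H776.NW.chW m h' hw') (H776.NW.chWInv m h' hw')
      (by omega) hm (fun N => H776.NW.chW_b m h' _ (by omega) N)
      (fun N => H776.NW.chWInv_b m h' _ (by omega) N) q hφ hε
  · exact nrm_zpowers Λ ν hν hR hE hq (H776.NW.chW m h hw) (H776.NW.chWInv m h hw)
      (by omega) hm (fun N => H776.NW.chW_b m h _ (by omega) N)
      (fun N => H776.NW.chWInv_b m h _ (by omega) N) q hφ hε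

/-- **`nrv`** for `A = ⟨tor 0⟩`. -/
theorem nrv_tor (hm : 2 ≤ m) (hR : ARep t R) (hE : CovFam R E0)
    (hq : ∀ A (q : Q), E0 A * lx ((1 : Γ), q) = lx ((1 : Γ), q) * E0 A)
    {w : k'} (hw : w ≠ 0) (hw1 : ‖w‖ ≠ 1) (q : Γ →* SpecialLinearGroup (Fin 3) k)
    (hφ : ∀ K : Set (SpecialLinearGroup (Fin 3) k), IsCompact K → {x | q x ∈ K}.Finite)
    {ξ : Lp (Ell2 ((Γ × Q) × ι)) 2 (H85.cdat ν hν).μ}
    (hξ : ξ ∈ BdL2 (H85.cdat ν hν).μ Γ Q ι) {ε : ℝ} (hε : 0 < ε) :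
    ∃ r : ℝ, ∀ u ∈ Subgroup.zpowers (tor m hw 0),
      ‖(H538.fst (baseL (H85.cdat ν hν).μ (Γ × Q) ι)).mp
        (ind fun γ => γ ∈ BB (fun γ => g1 (q γ).1) (fun γ => g2 (q γ).1) r)
        (Ri (H85.cdat ν hν) R u ξ)‖ ≤ ε := by
  have : Countable Λ := H790.countable_of_discrete Λ
  exact H776.NW.nrv_abs (H85.cdat ν hν) hR (fun _ _ h => H859.CL.BB_mono h) (BB_trans q)
    (A := (Subgroup.zpowers (tor m hw 0) : Set _))
    (fun ε hε => nrm_tor Λ ν hν hm hR hE hq hw hw1 q hφ hε) hξ hε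

end inst

end Vale.Agent.P092.H144.Mass
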