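import Vale.Agent.P092.H144.Match
import Vale.Agent.P092.H941.LatOrb

/-!
P092, project B (helper144): block [MATCH-R] (`LatPair` instead of `Irr`).
-/

set_option linter.all false

open scoped InnerProductSpace
open Filter Topology ContinuousLinearMap

namespace Vale.Agent.P092.H144

open Vale.Agent.P092.SR

/-- A nonnegative function on `Γ`, invariant on the left under `Θ₁` and on the right under `Θ₂`,
summable over `Γ ⧸ Θ₂`, vanishes if `Θ₁` has infinite orbits on `Γ ⧸ Θ₂`. -/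
theorem zero_of_orbit {Γ : Type} [Group Γ] (Θ₁ Θ₂ : Subgroup Γ)
    (hinf : ∀ g : Γ, Set.Infinite {x : Γ ⧸ Θ₂ | ∃ γ, γ ∈ Θ₁ ∧ x = ((γ * g : Γ) : Γ ⧸ Θ₂)})
    (f : Γ → ℝ) (hl : ∀ h ∈ Θ₁, ∀ g, f (h * g) = f g) (hr : ∀ h ∈ Θ₂, ∀ g, f (g * h) = f g)
    (hs : Summable fun q : Γ ⧸ Θ₂ => f q.out) (g : Γ) : f g = 0 := by
  by_contra hne
  have h1 := hs.tendsto_cofinite_zero
  have h2 : ∀ᶠ q : Γ ⧸ Θ₂ in cofinite, |f q.out| < |f g| := by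
    have := h1.abs
    rw [abs_zero] at this
    exact this.eventually (gt_mem_nhds (abs_pos.mpr hne))
  rw [eventually_cofinite] at h2
  apply hinf g
  refine h2.subset ?_
  rintro _ ⟨h, hh, rfl⟩
  obtain ⟨u, hu⟩ := QuotientGroup.mk_out_eq_mul Θ₂ (h * g)
  simp only [Set.mem_setOf_eq, not_lt]
  rw [hu, hr _ u.2, hl h hh]

theorem matchRStmt_of (hTr : TrStmt) : MatchRStmt := by
  intro ι Γ G₁ G₂ H ℋ _ _ _ _ _ _ _ _ _ _ _ _ V R₁ R₂ ξ p₁ p₂ q hT hG₁ hG₂ hH hLat _ _ K₁ K₂ L₁ L₂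
    hK₁ hK₂ hL₁ hL₂ a b ha hb ha0 hb0 c d hac hbd
  haveI := hG₂.top
  haveI := hH.top
  have hapos : a.IsPositive := (ContinuousLinearMap.nonneg_iff_isPositive a).mp ha0
  have hbpos : b.IsPositive := (ContinuousLinearMap.nonneg_iff_isPositive b).mp hb0
  -- commutation of `a`, `b`
  have haV : ∀ h ∈ K₁.comap p₁, ∀ v, a (V h v) = V h (a v) := fun h hh v =>
    congrArg (fun T : ℋ →L[ℂ] ℋ => T v) (ha.1 h hh)
  have haR : ∀ h ∈ L₁.comap q, ∀ v, a (R₁ h v) = R₁ h (a v) := fun h hh v =>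
    congrArg (fun T : ℋ →L[ℂ] ℋ => T v) (ha.2.1 h hh)
  have haR₂ : ∀ h v, a (R₂ h v) = R₂ h (a v) := fun h v =>
    congrArg (fun T : ℋ →L[ℂ] ℋ => T v) (ha.2.2 _ ⟨h, rfl⟩)
  have hbV : ∀ h ∈ K₂.comap p₂, ∀ v, b (V h v) = V h (b v) := fun h hh v =>
    congrArg (fun T : ℋ →L[ℂ] ℋ => T v) (hb.1 h hh)
  have hbR : ∀ h, q h ∈ L₂ → ∀ v, b (R₁ h v) = R₁ h (b v) := fun h hh v =>
    congrArg (fun T : ℋ →L[ℂ] ℋ => T v) (hb.2.1 h hh)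
  have hbR₂ : ∀ h v, b (R₂ h v) = R₂ h (b v) := fun h v =>
    congrArg (fun T : ℋ →L[ℂ] ℋ => T v) (hb.2.2 _ ⟨h, rfl⟩)
  have hVR₁ : ∀ g h v, V g (R₁ h v) = R₁ h (V g v) := fun g h v =>
    congrArg (fun T : ℋ →L[ℂ] ℋ => T v) (hT.comm₁ g h)
  have hVR₂ : ∀ g h v, V g (R₂ h v) = R₂ h (V g v) := fun g h v =>
    congrArg (fun T : ℋ →L[ℂ] ℋ => T v) (hT.comm₂ g h)
  have hΘle : (L₁ ⊓ L₂).comap q ≤ L₁.comap q := Subgroup.comap_mono inf_le_left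
  have hηs := eta_summable hT.adj₁ hapos hΘle (relIndex_comap_inf q L₁ L₂ hL₁ hL₂) haR ξ
    (fun k => (hac (ξ k)).summable)
  have hsum := coset_summable (Θ₂ := K₂.comap p₂) (d := d) hT.adjV hbpos
    (fun p : ι × (Γ ⧸ (L₁ ⊓ L₂).comap q) => a (R₁ (p.2.out)⁻¹ (ξ p.1))) hηs hbd
  have hfs := fun g : Γ => fs_summable hT.adjV b
    (fun p : ι × (Γ ⧸ (L₁ ⊓ L₂).comap q) => a (R₁ (p.2.out)⁻¹ (ξ p.1))) hηs g⁻¹
  have hzero := zero_of_orbit (K₁.comap p₁) (K₂.comap p₂) (H941.inf_of_lat hLat hG₁ hG₂ hK₁ hK₂)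
    (fun g => ∑' p : ι × (Γ ⧸ (L₁ ⊓ L₂).comap q), ‖b (V g⁻¹ (a (R₁ (p.2.out)⁻¹ (ξ p.1))))‖ ^ 2)
    (fun h hh g => by
      refine hs_inv hTr hT ((L₁ ⊓ L₂).comap q) (b * V g⁻¹ * a) ?_ ?_ h⁻¹ (hfs g).hasSum ?_
      · intro u hu
        ext1 v
        change b (V g⁻¹ (a (R₁ u v))) = R₁ u (b (V g⁻¹ (a v)))
        rw [haR u (hΘle hu), hVR₁, hbR u (Subgroup.mem_comap.mp hu).2]
      · intro u
        ext1 v
        change b (V g⁻¹ (a (R₂ u v))) = R₂ u (b (V g⁻¹ (a v)))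
        rw [haR₂, hVR₂, hbR₂]
      · have h1 := (hfs (h * g)).hasSum
        have e : ∀ p : ι × (Γ ⧸ (L₁ ⊓ L₂).comap q),
            b (V (h * g)⁻¹ (a (R₁ (p.2.out)⁻¹ (ξ p.1)))) =
            (b * V g⁻¹ * a) (V h⁻¹ (R₁ (p.2.out)⁻¹ (ξ p.1))) := by
          intro p
          change _ = b (V g⁻¹ (a (V h⁻¹ (R₁ (p.2.out)⁻¹ (ξ p.1)))))
          rw [haV _ ((K₁.comap p₁).inv_mem hh), mul_inv_rev, map_mul]
          rfl
        simp only [e] at h1 ⊢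
        exact h1)
    (fun h hh g => by
      apply tsum_congr
      intro p
      have e : V (g * h)⁻¹ (a (R₁ (p.2.out)⁻¹ (ξ p.1))) =
          V h⁻¹ (V g⁻¹ (a (R₁ (p.2.out)⁻¹ (ξ p.1)))) := by
        rw [mul_inv_rev, map_mul]; rfl
      rw [e, hbV _ ((K₂.comap p₂).inv_mem hh), rep_norm hT.adjV]) hsum
  have hterm : ∀ g (p : ι × (Γ ⧸ (L₁ ⊓ L₂).comap q)),
      b (V g⁻¹ (a (R₁ (p.2.out)⁻¹ (ξ p.1)))) = 0 := by
    intro g p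
    have h1 : ‖b (V g⁻¹ (a (R₁ (p.2.out)⁻¹ (ξ p.1))))‖ ^ 2 ≤ _ :=
      (hfs g).le_tsum p (fun _ _ => by positivity)
    rw [hzero g] at h1
    have h2 : ‖b (V g⁻¹ (a (R₁ (p.2.out)⁻¹ (ξ p.1))))‖ = 0 := by
      have h3 := le_antisymm h1 (by positivity)
      exact pow_eq_zero_iff (two_ne_zero) |>.mp h3
    exact norm_eq_zero.mp h2
  refine end_zero (V := V) hbpos hbd (fun g ζ => ?_)
  have h0 : b * V g⁻¹ * a = 0 := by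
    apply zero_of_frame hT
    intro k h h'
    obtain ⟨u, hu⟩ := QuotientGroup.mk_out_eq_mul ((L₁ ⊓ L₂).comap q) (h⁻¹)
    have e1 : h = (u : Γ) * ((QuotientGroup.mk h⁻¹ : Γ ⧸ (L₁ ⊓ L₂).comap q).out)⁻¹ := by
      rw [hu]; group
    have e2 : R₁ h (R₂ h' (ξ k)) =
        R₂ h' (R₁ u (R₁ ((QuotientGroup.mk h⁻¹ : Γ ⧸ (L₁ ⊓ L₂).comap q).out)⁻¹ (ξ k))) := by
      have e3 : R₁ h (R₂ h' (ξ k)) = R₂ h' (R₁ h (ξ k)) :=
        congrArg (fun T : ℋ →L[ℂ] ℋ => T (ξ k)) (hT.comm₁₂ h h')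
      rw [e3]
      congr 1
      conv_lhs => rw [e1]
      rw [map_mul]; rfl
    rw [e2]
    change b (V g⁻¹ (a (R₂ h' (R₁ u (R₁ ((QuotientGroup.mk h⁻¹ :
      Γ ⧸ (L₁ ⊓ L₂).comap q).out)⁻¹ (ξ k)))))) = 0
    rw [haR₂, haR _ (hΘle u.2), hVR₂, hVR₁, hbR₂, hbR _ (Subgroup.mem_comap.mp u.2).2,
      hterm g (k, QuotientGroup.mk h⁻¹), map_zero, map_zero]
  exact congrArg (fun T : ℋ →L[ℂ] ℋ => T ζ) h0

/-- **[MATCH-R]** -/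
theorem matchRStmt : MatchRStmt := matchRStmt_of H911.trStmt

end Vale.Agent.P092.H144
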